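import Vale.Agent.P146.H641.Tail
import Vale.Agent.P146.H632.DV

/-!
# P146: changes of law and convex functions of a Gaussian vector

For a convex function `U` of a standard Gaussian vector, `a ↦ P(U ≤ a)` is log-concave, so the
lower tail of `U` is exponential at the scale of its standard deviation, and a change of law with
entropy `K` lowers the mean of `U` by at most `12 σ (K + 3/2)`.
-/

open MeasureTheory ProbabilityTheory Set
open scoped ENNReal NNReal

namespace Vale.Agent.P146.H641.SU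

open Vale.Agent.P146.H605

section gen

variable {Ω : Type*} [MeasurableSpace Ω] {μ : Measure Ω} [IsProbabilityMeasure μ]

/-- A geometric tail gives an exponential moment. -/
theorem lexp_of_geom {Z : Ω → ℝ} (hZ : Measurable Z) {c L : ℝ} (hL : 0 < L)
    (h : ∀ k : ℕ, μ.real {ω | c + k * L ≤ Z ω} ≤ (3 / 16) ^ k) {x : ℝ} (hx : 0 ≤ x)
    (hxL : x * L ≤ 1 / 2) :
    ∫⁻ ω, ENNReal.ofReal (Real.exp (x * (Z ω - c))) ∂μ ≤ ENNReal.ofReal (7 / 2) := by
  have hset : ∀ k : ℕ, MeasurableSet {ω : Ω | c + k * L ≤ Z ω} :=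
    fun k => measurableSet_le measurable_const hZ
  have hpt : ∀ ω : Ω,
      ENNReal.ofReal (Real.exp (x * (Z ω - c))) ≤
      1 + ∑' k : ℕ, {ω : Ω | c + k * L ≤ Z ω}.indicator
        (fun _ => ENNReal.ofReal (Real.exp (((k : ℝ) + 1) * (1 / 2)))) ω := by
    intro ω
    rcases lt_or_ge (Z ω) c with h | h
    · refine le_trans ?_ (le_self_add)
      rw [← ENNReal.ofReal_one]
      refine ENNReal.ofReal_le_ofReal (Real.exp_le_one_iff.2 ?_)
      exact mul_nonpos_of_nonneg_of_nonpos hx (by linarith)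
    · refine le_trans ?_ (le_add_self)
      refine le_trans ?_ (ENNReal.le_tsum ⌊(Z ω - c) / L⌋₊)
      have h1 : c + (⌊(Z ω - c) / L⌋₊ : ℝ) * L ≤ Z ω := by
        have h2 := Nat.floor_le (div_nonneg (sub_nonneg.2 h) hL.le)
        rw [le_div_iff₀ hL] at h2
        linarith
      have hmem : ω ∈ {ω' : Ω | c + (⌊(Z ω - c) / L⌋₊ : ℝ) * L ≤ Z ω'} := h1
      rw [indicator_of_mem hmem]
      refine ENNReal.ofReal_le_ofReal (Real.exp_le_exp.2 ?_)
      have h3 := Nat.lt_floor_add_one ((Z ω - c) / L)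
      rw [div_lt_iff₀ hL] at h3
      set N : ℝ := (⌊(Z ω - c) / L⌋₊ : ℝ) with hN
      have hN0 : 0 ≤ N := Nat.cast_nonneg _
      calc x * (Z ω - c) ≤ x * ((N + 1) * L) :=
            mul_le_mul_of_nonneg_left (by linarith) hx
        _ = (N + 1) * (x * L) := by ring
        _ ≤ (N + 1) * (1 / 2) := mul_le_mul_of_nonneg_left hxL (by linarith)
  refine (lintegral_mono hpt).trans ?_
  rw [lintegral_add_left measurable_const, lintegral_const, measure_univ, mul_one,
    lintegral_tsum fun k => (measurable_const.indicator (hset k)).aemeasurable]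
  have hterm : ∀ k : ℕ, ∫⁻ ω, {ω : Ω | c + k * L ≤ Z ω}.indicator
        (fun _ => ENNReal.ofReal (Real.exp (((k : ℝ) + 1) * (1 / 2)))) ω ∂μ ≤
      ENNReal.ofReal (5 / 3) * ENNReal.ofReal (5 / 16) ^ k := by
    intro k
    rw [lintegral_indicator_const (hset k)]
    have h1 : μ {ω : Ω | c + k * L ≤ Z ω} ≤ ENNReal.ofReal ((3 / 16) ^ k) := by
      rw [← ofReal_measureReal]
      exact ENNReal.ofReal_le_ofReal (h k)
    refine (mul_le_mul_right h1 _).trans ?_
    rw [← ENNReal.ofReal_mul (Real.exp_pos _).le, ← ENNReal.ofReal_pow (by norm_num),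
      ← ENNReal.ofReal_mul (by norm_num)]
    refine ENNReal.ofReal_le_ofReal ?_
    have h2 : Real.exp (((k : ℝ) + 1) * (1 / 2)) = Real.exp (1 / 2) ^ (k + 1) := by
      rw [← Real.exp_nat_mul]
      push_cast
      ring_nf
    rw [h2]
    calc Real.exp (1 / 2) ^ (k + 1) * (3 / 16) ^ k ≤ (5 / 3) ^ (k + 1) * (3 / 16) ^ k := by
          have := pow_le_pow_left₀ (Real.exp_pos (1 / 2)).le exp_half_le (k + 1)
          exact mul_le_mul_of_nonneg_right this (by positivity)
      _ = 5 / 3 * ((5 / 3) * (3 / 16)) ^ k := by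
          rw [mul_pow, pow_succ]
          ring
      _ = 5 / 3 * (5 / 16) ^ k := by norm_num
  refine (add_le_add_right (ENNReal.tsum_le_tsum hterm) 1).trans ?_
  rw [ENNReal.tsum_mul_left, ENNReal.tsum_geometric]
  have h1 : (1 : ℝ≥0∞) - ENNReal.ofReal (5 / 16) = ENNReal.ofReal (11 / 16) := by
    rw [← ENNReal.ofReal_one, ← ENNReal.ofReal_sub _ (by norm_num)]
    norm_num
  rw [h1, ← ENNReal.ofReal_inv_of_pos (by norm_num), ← ENNReal.ofReal_mul (by norm_num),
    ← ENNReal.ofReal_one, ← ENNReal.ofReal_add (by norm_num) (by norm_num)]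
  exact ENNReal.ofReal_le_ofReal (by norm_num)

/-- A geometric tail gives an exponential moment. -/
theorem exp_of_geom {Z : Ω → ℝ} (hZ : Measurable Z) {c L : ℝ} (hL : 0 < L)
    (h : ∀ k : ℕ, μ.real {ω | c + k * L ≤ Z ω} ≤ (3 / 16) ^ k) {x : ℝ} (hx : 0 ≤ x)
    (hxL : x * L ≤ 1 / 2) :
    Integrable (fun ω => Real.exp (x * (Z ω - c))) μ ∧
      ∫ ω, Real.exp (x * (Z ω - c)) ∂μ ≤ 7 / 2 := by
  have h0 := lexp_of_geom hZ hL h hx hxL
  have hm : Measurable fun ω => Real.exp (x * (Z ω - c)) :=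
    Real.measurable_exp.comp ((hZ.sub_const c).const_mul x)
  have hi : Integrable (fun ω => Real.exp (x * (Z ω - c))) μ := by
    refine ⟨hm.aestronglyMeasurable, ?_⟩
    rw [hasFiniteIntegral_iff_ofReal (Filter.Eventually.of_forall fun g => (Real.exp_pos _).le)]
    exact h0.trans_lt ENNReal.ofReal_lt_top
  refine ⟨hi, ?_⟩
  rw [← ofReal_integral_eq_lintegral_ofReal hi
    (Filter.Eventually.of_forall fun g => (Real.exp_pos _).le)] at h0
  exact (ENNReal.ofReal_le_ofReal_iff (by norm_num)).1 h0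

/-- An exponential moment controls changes of law (Donsker-Varadhan). -/
theorem shift_of_exp {h Z : Ω → ℝ} (h0 : ∀ ω, 0 ≤ h ω) (hi : ∫ ω, h ω ∂μ = 1)
    (hl : Integrable (fun ω => h ω * Real.log (h ω)) μ)
    (hZ : Integrable (fun ω => h ω * Z ω) μ) {x c : ℝ} (hx : 0 < x)
    (he : Integrable (fun ω => Real.exp (x * (Z ω - c))) μ)
    (hb : ∫ ω, Real.exp (x * (Z ω - c)) ∂μ ≤ 7 / 2) :
    ∫ ω, h ω * Z ω ∂μ - c ≤ (∫ ω, h ω * Real.log (h ω) ∂μ + 3 / 2) / x := by
  have hh : Integrable h μ := by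
    by_contra hc
    rw [integral_undef hc] at hi
    exact zero_ne_one hi
  have hu : Integrable (fun ω => h ω * (x * (Z ω - c))) μ := by
    have h1 := (hZ.const_mul x).sub (hh.mul_const (x * c))
    refine h1.congr (Filter.Eventually.of_forall fun g => ?_)
    simp only [Pi.sub_apply]
    ring
  have h1 := H632.DV.dv_gen h0 hi hl hu he
  have h2 : Real.log (∫ ω, Real.exp (x * (Z ω - c)) ∂μ) ≤ 3 / 2 :=
    (Real.log_le_log (integral_exp_pos he) hb).trans log_seven_half
  have e1 : ∫ ω, h ω * (x * (Z ω - c)) ∂μ = x * (∫ ω, h ω * Z ω ∂μ - c) := by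
    have e2 : (fun ω => h ω * (x * (Z ω - c))) = fun ω => x * (h ω * Z ω) - h ω * (x * c) := by
      funext g
      ring
    rw [e2, integral_sub (hZ.const_mul x) (hh.mul_const _), integral_const_mul,
      integral_mul_const, hi]
    ring
  rw [e1] at h1
  rw [le_div_iff₀ hx]
  linarith

/-- Chebyshev. -/
lemma cheb {Z : Ω → ℝ} (hZ : MemLp Z 2 μ) {S : ℝ} (hS : 0 < S) (hV : Var[Z; μ] ≤ S ^ 2) :
    μ.real {ω | 3 * S ≤ |Z ω - ∫ ω, Z ω ∂μ|} ≤ 1 / 9 := by
  have h1 := meas_ge_le_variance_div_sq hZ (c := 3 * S) (by positivity)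
  have h3 := ENNReal.toReal_mono ENNReal.ofReal_ne_top h1
  rw [ENNReal.toReal_ofReal (div_nonneg (variance_nonneg _ _) (sq_nonneg _))] at h3
  refine le_trans h3 ?_
  rw [div_le_div_iff₀ (by positivity) (by norm_num)]
  nlinarith

/-- The ratios of a nonincreasing log-concave sequence are nonincreasing. -/
lemma geom0 {t : ℕ → ℝ} (hp : ∀ k, 0 ≤ t k) (ha : ∀ k, t (k + 1) ≤ t k)
    (hc : ∀ k, t k * t (k + 2) ≤ t (k + 1) ^ 2)
    {r : ℝ} (hr0 : 0 ≤ r) (hr : t 1 ≤ r * t 0) (h0 : t 0 ≤ 1) (k : ℕ) : t k ≤ r ^ k := by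
  have key : ∀ k, t (k + 1) ≤ r * t k := by
    intro k
    induction k with
    | zero => exact hr
    | succ k ih =>
      rcases (hp k).eq_or_lt with hk | hk
      · have h1 := ha k
        have h2 := ha (k + 1)
        have h3 := hp (k + 1)
        have h4 : t (k + 1) = 0 := le_antisymm (by linarith) h3
        have h5 : k + 1 + 1 = k + 2 := rfl
        rw [h4, mul_zero]
        linarith
      · have h1 := hc k
        have h3 := hp (k + 1)
        have h4 : t k * t (k + 2) ≤ t k * (r * t (k + 1)) := by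
          calc t k * t (k + 2) ≤ t (k + 1) * t (k + 1) := by rw [← sq]; exact h1
            _ ≤ (r * t k) * t (k + 1) := mul_le_mul_of_nonneg_right ih h3
            _ = t k * (r * t (k + 1)) := by ring
        exact le_of_mul_le_mul_left h4 hk
  induction k with
  | zero => simpa using h0
  | succ k ih =>
    refine (key k).trans ?_
    rw [pow_succ, mul_comm]
    exact mul_le_mul_of_nonneg_right ih hr0

end gen

section gauss

variable {ι : Type*} [Fintype ι]

/-- Sublevel sets of convex functions have log-concave Gaussian measure. -/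
theorem sub_mid {U : (ι → ℝ) → ℝ} (hU : Measurable U)
    (hc : ∀ x y : ι → ℝ, U ((1 / 2 : ℝ) • x + (1 / 2 : ℝ) • y) ≤ (U x + U y) / 2) (a b : ℝ) :
    (Measure.pi fun _ : ι => gaussianReal 0 1).real {z | U z ≤ a} *
      (Measure.pi fun _ : ι => gaussianReal 0 1).real {z | U z ≤ b} ≤
      (Measure.pi fun _ : ι => gaussianReal 0 1).real {z | U z ≤ (a + b) / 2} ^ 2 := by
  set γ := (Measure.pi fun _ : ι => gaussianReal 0 1) with hγ
  have hset : ∀ a : ℝ, MeasurableSet {z | U z ≤ a} := fun a => measurableSet_le hU measurable_const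
  have key := LogCc.pl_gauss (ι := ι) (s := 1 / 2) (t := 1 / 2) (by norm_num) (by norm_num)
    (by norm_num) ({z | U z ≤ a}.indicator fun _ => 1) ({z | U z ≤ b}.indicator fun _ => 1)
    ({z | U z ≤ (a + b) / 2}.indicator fun _ => 1) (measurable_const.indicator (hset a))
    (measurable_const.indicator (hset b)) (measurable_const.indicator (hset _)) (by
      intro x y
      by_cases hx : x ∈ {z | U z ≤ a}
      · by_cases hy : y ∈ {z | U z ≤ b}
        · have hxy : ((1 / 2 : ℝ) • x + (1 / 2 : ℝ) • y) ∈ {z | U z ≤ (a + b) / 2} := by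
            have h1 := hc x y
            have h2 : U x ≤ a := hx
            have h3 : U y ≤ b := hy
            have h4 : U ((1 / 2 : ℝ) • x + (1 / 2 : ℝ) • y) ≤ (a + b) / 2 := by linarith
            exact h4
          rw [indicator_of_mem hx, indicator_of_mem hy, indicator_of_mem hxy]
          simp
        · rw [indicator_of_notMem hy, ENNReal.zero_rpow_of_pos (by norm_num), mul_zero]
          exact zero_le
      · rw [indicator_of_notMem hx, ENNReal.zero_rpow_of_pos (by norm_num), zero_mul]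
        exact zero_le)
  rw [lintegral_indicator_const (hset a), lintegral_indicator_const (hset b),
    lintegral_indicator_const (hset _), one_mul, one_mul, one_mul, ← hγ] at key
  have e : ∀ a : ℝ, γ {z | U z ≤ a} = ENNReal.ofReal (γ.real {z | U z ≤ a}) := fun a =>
    (ofReal_measureReal).symm
  rw [e, e, e, ENNReal.ofReal_rpow_of_nonneg measureReal_nonneg (by norm_num),
    ENNReal.ofReal_rpow_of_nonneg measureReal_nonneg (by norm_num),
    ← ENNReal.ofReal_mul (Real.rpow_nonneg measureReal_nonneg _),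
    ENNReal.ofReal_le_ofReal_iff measureReal_nonneg] at key
  have ha : 0 ≤ γ.real {z | U z ≤ a} := measureReal_nonneg
  have hb : 0 ≤ γ.real {z | U z ≤ b} := measureReal_nonneg
  have h1 : (γ.real {z | U z ≤ a} ^ (1 / 2 : ℝ) * γ.real {z | U z ≤ b} ^ (1 / 2 : ℝ)) ^ 2 ≤
      γ.real {z | U z ≤ (a + b) / 2} ^ 2 :=
    pow_le_pow_left₀ (by positivity) key 2
  rw [mul_pow, ← Real.rpow_natCast, ← Real.rpow_natCast, ← Real.rpow_mul ha,
    ← Real.rpow_mul hb] at h1
  norm_num at h1
  exact h1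

/-- The lower tail of a convex function of a Gaussian vector is exponential at the scale of the
standard deviation. -/
theorem low_geom {U : (ι → ℝ) → ℝ} (hU : Measurable U)
    (hU2 : MemLp U 2 (Measure.pi fun _ : ι => gaussianReal 0 1))
    (hc : ∀ x y : ι → ℝ, U ((1 / 2 : ℝ) • x + (1 / 2 : ℝ) • y) ≤ (U x + U y) / 2)
    {S : ℝ} (hS : 0 < S) (hV : Var[U; Measure.pi fun _ : ι => gaussianReal 0 1] ≤ S ^ 2)
    (k : ℕ) :
    (Measure.pi fun _ : ι => gaussianReal 0 1).real
      {z | U z ≤ ∫ z, U z ∂(Measure.pi fun _ : ι => gaussianReal 0 1) + 3 * S - k * (6 * S)} ≤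
      (3 / 16) ^ k := by
  set γ := (Measure.pi fun _ : ι => gaussianReal 0 1) with hγ
  set m := ∫ z, U z ∂γ with hm
  have hset : ∀ a : ℝ, MeasurableSet {z | U z ≤ a} := fun a => measurableSet_le hU measurable_const
  have hch := cheb hU2 hS hV
  refine geom0 (t := fun k : ℕ => γ.real {z | U z ≤ m + 3 * S - k * (6 * S)})
    (fun k => measureReal_nonneg) (fun k => measureReal_mono ?_) (fun k => ?_) (by norm_num) ?_
    (measureReal_le_one) k
  · intro z hz
    have h1 : U z ≤ m + 3 * S - ((k + 1 : ℕ) : ℝ) * (6 * S) := hz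
    push_cast at h1
    have h2 : U z ≤ m + 3 * S - k * (6 * S) := by nlinarith
    exact h2
  · have h := sub_mid hU hc (m + 3 * S - k * (6 * S)) (m + 3 * S - ((k + 2 : ℕ) : ℝ) * (6 * S))
    have e : (m + 3 * S - k * (6 * S) + (m + 3 * S - ((k + 2 : ℕ) : ℝ) * (6 * S))) / 2 =
        m + 3 * S - ((k + 1 : ℕ) : ℝ) * (6 * S) := by
      push_cast
      ring
    rw [e] at h
    exact h
  · have h1 : γ.real {z | U z ≤ m + 3 * S - ((1 : ℕ) : ℝ) * (6 * S)} ≤ 1 / 9 := by
      refine (measureReal_mono ?_).trans hch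
      intro z hz
      have h2 : U z ≤ m + 3 * S - ((1 : ℕ) : ℝ) * (6 * S) := hz
      push_cast at h2
      have h3 : 3 * S ≤ |U z - m| := by
        rw [abs_of_nonpos (by linarith)]
        linarith
      exact h3
    have h2 : 8 / 9 ≤ γ.real {z | U z ≤ m + 3 * S - ((0 : ℕ) : ℝ) * (6 * S)} := by
      have h3 := probReal_compl_eq_one_sub (μ := γ)
        (hset (m + 3 * S - ((0 : ℕ) : ℝ) * (6 * S)))
      have h4 : γ.real {z | U z ≤ m + 3 * S - ((0 : ℕ) : ℝ) * (6 * S)}ᶜ ≤ 1 / 9 := by
        refine (measureReal_mono ?_).trans hch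
        intro z hz
        have h5 : m + 3 * S - ((0 : ℕ) : ℝ) * (6 * S) < U z := not_le.1 hz
        push_cast at h5
        have h6 : 3 * S ≤ |U z - m| := by
          rw [abs_of_nonneg (by linarith)]
          linarith
        exact h6
      rw [h3] at h4
      linarith
    linarith

/-- **A change of law with entropy `K` lowers the mean of a convex function of a Gaussian vector
by at most `12 σ (K + 3/2) + 3 σ`.** -/
theorem low_shift {U h : (ι → ℝ) → ℝ} (hU : Measurable U)
    (hU2 : MemLp U 2 (Measure.pi fun _ : ι => gaussianReal 0 1))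
    (hc : ∀ x y : ι → ℝ, U ((1 / 2 : ℝ) • x + (1 / 2 : ℝ) • y) ≤ (U x + U y) / 2)
    {S : ℝ} (hS : 0 < S) (hV : Var[U; Measure.pi fun _ : ι => gaussianReal 0 1] ≤ S ^ 2)
    (h0 : ∀ z, 0 ≤ h z) (hi : ∫ z, h z ∂(Measure.pi fun _ : ι => gaussianReal 0 1) = 1)
    (hl : Integrable (fun z => h z * Real.log (h z)) (Measure.pi fun _ : ι => gaussianReal 0 1))
    (hhU : Integrable (fun z => h z * U z) (Measure.pi fun _ : ι => gaussianReal 0 1)) :
    ∫ z, U z ∂(Measure.pi fun _ : ι => gaussianReal 0 1) -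
      ∫ z, h z * U z ∂(Measure.pi fun _ : ι => gaussianReal 0 1) ≤
      12 * S * (∫ z, h z * Real.log (h z) ∂(Measure.pi fun _ : ι => gaussianReal 0 1) + 3 / 2) := by
  set γ := (Measure.pi fun _ : ι => gaussianReal 0 1) with hγ
  set m := ∫ z, U z ∂γ with hm
  have hg : ∀ k : ℕ, γ.real {z | -(m + 3 * S) + k * (6 * S) ≤ -U z} ≤ (3 / 16) ^ k := by
    intro k
    refine le_trans (le_of_eq ?_) (low_geom hU hU2 hc hS hV k)
    congr 1
    ext z
    simp only [mem_ofPred_eq]
    constructor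
    · intro h
      linarith
    · intro h
      linarith
  have hx : (0 : ℝ) < 1 / (12 * S) := by positivity
  have hxL : 1 / (12 * S) * (6 * S) ≤ 1 / 2 := by
    refine le_of_eq ?_
    field_simp
    norm_num
  obtain ⟨e1, e2⟩ := exp_of_geom (Z := fun z => -U z) hU.neg (by positivity : 0 < 6 * S) hg hx.le hxL
  have hZ : Integrable (fun z => h z * -U z) γ := by
    refine hhU.neg.congr (Filter.Eventually.of_forall fun z => ?_)
    simp
  have h1 := shift_of_exp h0 hi hl hZ hx e1 e2
  have h2 : ∫ z, h z * -U z ∂γ = -∫ z, h z * U z ∂γ := by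
    rw [← integral_neg]
    refine integral_congr_ae (Filter.Eventually.of_forall fun z => ?_)
    simp
  rw [h2] at h1
  have h3 : (∫ z, h z * Real.log (h z) ∂γ + 3 / 2) / (1 / (12 * S)) =
      12 * S * (∫ z, h z * Real.log (h z) ∂γ + 3 / 2) := by
    field_simp
  rw [h3] at h1
  linarith

end gauss

end Vale.Agent.P146.H641.SU
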