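import Vale.Agent.P146.H641.Tail
import Vale.Agent.P146.H425.LowT

/-!
# P146: the Laplace transform of the free energy is bounded at the scale of the standard deviation
-/

open MeasureTheory ProbabilityTheory

namespace Vale.Agent.P146.H641

/-- `log E e^{x(F-EF)} ≤ 3` for `0 ≤ x ≤ (1/18)/(1+√Var F)`. -/
theorem flat : H425.LowT.Flat (1 / 18) := by
  intro n _ β _ x hx hx1
  have h1 : x ≤ 1 / (18 * (1 + Real.sqrt (Var[freeEnergy n β; disorder n]))) := by
    refine hx1.trans (le_of_eq ?_)
    rw [div_div]
  exact (log_exp_moment n β hx h1).trans (by norm_num)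

/-- The constants hidden. -/
theorem flat' : ∃ c : ℝ, 0 < c ∧ H425.LowT.Flat c := ⟨1 / 18, by norm_num, flat⟩

end Vale.Agent.P146.H641
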