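import Vale.Agent.P146.H641.Rates
import Vale.Agent.P146.H432.XStar
import Vale.Agent.P146.H89.DeepO

/-!
# P146: the functional of one window, deep and plain

`|DD x s (Fz ..) - Dn n β x s| ≤ n^(1/6)` (`DD_deep`), so that all the numbers of a good window pass
from the free energy to the deep functional (`deep_num`); the rates at a good window (`rates_num`).
-/

open MeasureTheory ProbabilityTheory Filter Topology

namespace Vale.Agent.P146.H641

open Vale.Agent.P157.Lv Vale.Agent.P146.H425 Vale.Agent.P146.H332 Vale.Agent.P146.H767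
  Vale.Agent.P146.H325
open Vale.Agent.P146.R1 Vale.Agent.P146.H432

set_option linter.unusedSectionVars false

section gen

variable {κ : Type} [Fintype κ] {F G : (κ → ℝ) → ℝ} {D D' : κ → (κ → ℝ) → ℝ}
  {B L B' L' x : ℝ}

/-- **Close functions have close functionals.** -/
theorem DD_near (h : C11 F D B L) (h' : C11 G D' B' L') (hx : 0 < x) {c : ℝ}
    (h1 : ∀ z, F z ≤ G z) (h2 : ∀ z, G z ≤ F z + c) (s : ℝ) :
    |DD x s G - DD x s F| ≤ c := by
  have k1 : ∀ z, uu x (1 - s) F z ≤ uu x (1 - s) G z := fun z =>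
    H941.W_mono h.lip h.B0 h'.lip h'.B0 hx h1 z
  have hc : LipB (fun z => F z + c) B := by
    intro u w
    have := h.lip u w
    simpa using this
  have k2 : ∀ z, uu x (1 - s) G z ≤ uu x (1 - s) F z + c := fun z => by
    have := H941.W_mono (s := √(1 - (1 - s))) h'.lip h'.B0 hc h.B0 hx h2 z
    rwa [H941.W_add_const h.lip h.B0 hx] at this
  have eF := EG.smul' (eg_uu h hx (1 - s)) (√(1 - s))
  have eG := EG.smul' (eg_uu h' hx (1 - s)) (√(1 - s))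
  have a1 := integral_mono eF.integrable eG.integrable fun z => k1 (√(1 - s) • z)
  have a2 := integral_mono eG.integrable (eF.add (EG.const c)).integrable
    fun z => k2 (√(1 - s) • z)
  have b1 := integral_mono h.eg.integrable h'.eg.integrable h1
  have b2 := integral_mono h'.eg.integrable (h.eg.add (EG.const c)).integrable h2
  rw [integral_add eF.integrable (integrable_const _)] at a2
  rw [integral_add h.eg.integrable (integrable_const _)] at b2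
  simp only [integral_const, probReal_univ, smul_eq_mul, one_mul] at a2 b2
  unfold H767.DD
  rw [abs_le]
  constructor <;> linarith

end gen

section sk

variable {n : ℕ} {β : ℝ} {m σ : ℕ → ℝ} {J : ℕ}

/-- **Deep and plain.** -/
theorem DD_deep (hn : 0 < n) (hL : Lay n β m σ J) {x : ℝ} (hx : 0 < x) (s : ℝ) :
    |DD x s (Fz n β m σ J) - Dn n β x s| ≤ (n : ℝ) ^ (1 / 6 : ℝ) := by
  obtain ⟨B, L, M, T, hS⟩ := sm_Fz (n := n) (β := β) (m := m) (σ := σ) (J := J) hL.pos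
  have h0 := c11_lz (β / √n) (SkS (n := n))
  have h1 : ∀ z, lz (β / √n) SkS z ≤ Fz n β m σ J z := fun z =>
    (FD_lz (σ := σ) hn β hL.pos hL.le z).1
  have h2 : ∀ z, Fz n β m σ J z ≤ lz (β / √n) SkS z + (n : ℝ) ^ (1 / 6 : ℝ) := fun z => by
    have k1 := (FD_lz (σ := σ) hn β hL.pos hL.le z).2
    have k2 := hL.sz
    exact k1.trans (by linarith)
  have h3 := hS.c11
  generalize Fz n β m σ J = G at h1 h2 h3 ⊢
  exact DD_near h0 h3 hx h1 h2 s

/-- **The numbers of a good window, deep.** -/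
theorem deep_num {β : ℝ} (K κ : ℝ) (hκ : 0 < κ) (hκ1 : κ ≤ 1) : ∀ᶠ n : ℕ in atTop,
    ∀ (m σ : ℕ → ℝ) (J : ℕ), Lay n β m σ J → ∀ x s : ℝ, 0 < x →
      (n : ℝ) ^ (1 / 6 + κ : ℝ) ≤ Dn n β x s →
      Dn n β x (7 / 8 * s) ≤ (1 - κ) * Dn n β x s →
      Dn n β (2 * x) s ≤ K * Dn n β x s →
      |DD x s (Fz n β m σ J) - Dn n β x s| ≤ (n : ℝ) ^ (-κ) * Dn n β x s ∧
      DD x s (Fz n β m σ J) ≤ 2 * Dn n β x s ∧ Dn n β x s ≤ 2 * DD x s (Fz n β m σ J) ∧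
      DD x (7 / 8 * s) (Fz n β m σ J) ≤ (1 - κ / 2) * DD x s (Fz n β m σ J) ∧
      DD (2 * x) s (Fz n β m σ J) ≤ (K + 1) * Dn n β x s := by
  have hlim : Tendsto (fun n : ℕ => (n : ℝ) ^ (-κ)) atTop (𝓝 0) :=
    (tendsto_rpow_neg_atTop hκ).comp tendsto_natCast_atTop_atTop
  have hev : ∀ᶠ n : ℕ in atTop, (n : ℝ) ^ (-κ) < min (1 / 2) (κ / 4) :=
    hlim.eventually_lt_const (by positivity)
  filter_upwards [hev, eventually_gt_atTop 0] with n hn hn0 m σ J hL x s hx h1 h2 h3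
  have hnp : (0 : ℝ) < n := Nat.cast_pos.2 hn0
  obtain ⟨D0, hD0⟩ : ∃ D0, D0 = Dn n β x s := ⟨_, rfl⟩
  have hp : (n : ℝ) ^ (1 / 6 : ℝ) ≤ (n : ℝ) ^ (-κ) * Dn n β x s := by
    have e : (n : ℝ) ^ (1 / 6 : ℝ) = (n : ℝ) ^ (-κ) * (n : ℝ) ^ (1 / 6 + κ : ℝ) := by
      rw [← Real.rpow_add hnp]
      congr 1
      ring
    rw [e]
    exact mul_le_mul_of_nonneg_left h1 (Real.rpow_nonneg hnp.le _)
  have hDp : 0 < Dn n β x s := lt_of_lt_of_le (Real.rpow_pos_of_pos hnp _) h1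
  have k1 := abs_le.1 (DD_deep hn0 hL hx s)
  have k2 := abs_le.1 (DD_deep hn0 hL hx (7 / 8 * s))
  have k3 := abs_le.1 (DD_deep hn0 hL (x := 2 * x) (by positivity) s)
  rw [← hD0] at h1 h2 h3 hp hDp k1 ⊢
  obtain ⟨hn1, hn2⟩ := lt_min_iff.1 hn
  have q1 : (n : ℝ) ^ (-κ) * D0 ≤ 1 / 2 * D0 := mul_le_mul_of_nonneg_right hn1.le hDp.le
  have q2 : (n : ℝ) ^ (-κ) * D0 ≤ κ / 4 * D0 := mul_le_mul_of_nonneg_right hn2.le hDp.le
  have q3 : 0 < (n : ℝ) ^ (-κ) := Real.rpow_pos_of_pos hnp _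
  refine ⟨abs_le.2 ⟨by linarith [k1.1], by linarith [k1.2]⟩, by linarith [k1.2],
    by linarith [k1.1], ?_, by linarith [k3.2]⟩
  have r1 : DD x (7 / 8 * s) (Fz n β m σ J) ≤ (1 - κ) * D0 + κ / 4 * D0 := by linarith [k2.2]
  have r2 : D0 - κ / 4 * D0 ≤ DD x s (Fz n β m σ J) := by linarith [k1.1]
  have r3 := mul_le_mul_of_nonneg_left r2 (by linarith : 0 ≤ 1 - κ / 2)
  nlinarith [mul_pos hκ hDp, mul_pos (mul_pos hκ hκ) hDp]

/-- **The rates at a good window**, in the form of the fields `rt2`, `rt3` of `Fo`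
(`T = 2 σ`, `ρ = 2 D / (x σ)`). -/
theorem rates_num {n : ℕ} (hn : 0 < n) {β : ℝ} (hβ : 0 < β) {x s D0 K A : ℝ}
    (S : R1S.CS n (β / √n) x) {B L M : ℝ} {HF TF : Pair n → Pair n → (Pair n → ℝ) → ℝ}
    (hS : Sm S.F S.D B L HF TF M) (hs : 0 < s) (hs1 : s ≤ 1) (hD0 : 0 ≤ D0)
    (hK : DD (2 * x) s S.F ≤ K * D0) (hA : 64 * K ≤ A) :
    ∃ s1 s2, 1 - 7 / 8 * s < s1 ∧ s1 < 1 - 13 / 16 * s ∧ 1 - 9 / 16 * s < s2 ∧ s2 < 1 - s / 2 ∧
      R1C.En ⟨x, -1, 0, 1 - s, s1, s2⟩ S.F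
        (fun w => ∑ e, fr (S.DA s1 e (R1C.P2 ⟨x, -1, 0, 1 - s, s1, s2⟩ w))) ≤
          A * R1C.NN n β (2 * D0 / (x * s)) / (2 * s) ∧
      R1C.En ⟨x, -1, 0, 1 - s, s1, s2⟩ S.F
        (fun w => ∑ e, fr (S.DA s2 e (R1C.P3 ⟨x, -1, 0, 1 - s, s1, s2⟩ w))) ≤
          A * R1C.NN n β (2 * D0 / (x * s)) / (2 * s) := by
  obtain ⟨s1, s2, a1, a2, a3, a4, r1, r2⟩ := rates S hS hs hs1
  have hx := S.x0
  have hnp : (0 : ℝ) < n := Nat.cast_pos.2 hn
  have hk : (β / √n) ^ 2 = β ^ 2 / n := by rw [div_pow, Real.sq_sqrt hnp.le]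
  have key : ∀ E : ℝ, (β / √n) ^ 2 / 2 * E ≤ 64 / (x * s ^ 2) * DD (2 * x) s S.F →
      E ≤ A * R1C.NN n β (2 * D0 / (x * s)) / (2 * s) := by
    intro E hE
    have h1 : 64 / (x * s ^ 2) * DD (2 * x) s S.F ≤ 64 / (x * s ^ 2) * (K * D0) :=
      mul_le_mul_of_nonneg_left hK (by positivity)
    have h2 : 64 / (x * s ^ 2) * (K * D0) ≤ A * D0 / (x * s ^ 2) := by
      have : 64 / (x * s ^ 2) * (K * D0) = (64 * K) * D0 / (x * s ^ 2) := by ring
      rw [this]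
      gcongr
    have h3 : (β / √n) ^ 2 / 2 * (A * R1C.NN n β (2 * D0 / (x * s)) / (2 * s)) =
        A * D0 / (x * s ^ 2) := by
      rw [hk]
      unfold R1C.NN
      field_simp
    refine le_of_mul_le_mul_left ((hE.trans (h1.trans h2)).trans h3.ge) ?_
    rw [hk]
    positivity
  exact ⟨s1, s2, a1, a2, a3, a4, key _ r1, key _ r2⟩

end sk

end Vale.Agent.P146.H641
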