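import Vale.Agent.P146.H641.Rates
import Vale.Agent.P146.H785.Growth
import Vale.Agent.P146.H767.Glue

/-!
# P146: growth of the mean squared gradient in the law of one window

The transport inequality `star_raw` of `H785/Growth.lean` holds for every tilt `θ`, in particular
for `θ = -1`, `t0 = 0`, `t1 = 1 - σ`, the law `(0 | x on [1 - σ, 1])`.  There it bounds the mean
squared Hessian from below by the total energy `DD (4 x) 1` (`star_win`), at every time of the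
window.  Together with the lower bound of the mean squared gradient by numbers (`Qin_ge`) it gives
the growth between two times of the window (`grow_win`).
-/

open MeasureTheory ProbabilityTheory Filter Topology

namespace Vale.Agent.P146.H641

open Vale.Agent.P157.Lv Vale.Agent.P146.H425 Vale.Agent.P146.H332 Vale.Agent.P146.H767
open Vale.Agent.P146.R1

set_option linter.unusedSectionVars false

section gen

variable {κ : Type} [Fintype κ] {F : (κ → ℝ) → ℝ} {D : κ → (κ → ℝ) → ℝ} {B L x σ t : ℝ}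

/-! ### the lower bound of the mean squared gradient -/

/-- the tangent inequality at the exponent `0` -/
lemma tangent0 (h : C11 F D B L) (hc : Cv F) (hx : 0 < x) :
    W x 1 F 0 - KL F x / x ≤ ∫ z, F z ∂(gI κ) := by
  obtain ⟨C, hC⟩ : ∃ C, C = cW κ (B * |1|) := ⟨_, rfl⟩
  obtain ⟨K, hK⟩ : ∃ K, K = KL F x / x ^ 2 := ⟨_, rfl⟩
  have hM : Mn 1 F 0 = ∫ z, F z ∂(gI κ) := by
    unfold Mn
    simp
  have h1 : ∀ y, 0 < y → y ≤ 1 → W x 1 F 0 + (y - x) * K ≤ (∫ z, F z ∂(gI κ)) + y * C := by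
    intro y hy hy1
    have h2 := tangent h hc hx hy
    have h3 := W_le_mean h.lip h.B0 hy hy1 1 (0 : κ → ℝ)
    rw [hM, ← hC] at h3
    rw [← hK] at h2
    exact h2.trans h3
  have e : KL F x / x = x * K := by
    rw [hK]
    field_simp
  rw [e]
  refine le_of_forall_pos_le_add fun ε hε => ?_
  set y : ℝ := min 1 (ε / (|C - K| + 1)) with hy
  have hp : 0 < |C - K| + 1 := by positivity
  have hy0 : 0 < y := by positivity
  have h4 := h1 y hy0 (min_le_left _ _)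
  have h5 : y * (C - K) ≤ ε := by
    have h6 : y ≤ ε / (|C - K| + 1) := min_le_right _ _
    rw [le_div_iff₀ hp] at h6
    have h7 := le_abs_self (C - K)
    have h8 := mul_le_mul_of_nonneg_left h7 hy0.le
    linarith
  linarith

/-- **The mean squared gradient from the functional, lower bound.** -/
theorem Qin_ge (h : C11 F D B L) (hc : Cv F) (hx : 0 < x) (h0 : 1 - σ ≤ t) (h1 : t ≤ 1)
    (hσ1 : σ ≤ 1) :
    DD x σ F - DD x (1 - t) F ≤ x / 2 * ((t - (1 - σ)) * Qin x σ t F D) := by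
  have hV := Vin_int (D := D) h hx (s := σ) (a := 1 - σ) (b := t) le_rfl h0 h1
  have hU := c11_uu h hx t
  have hcU : Cv (uu x t F) := H941.cv_W h hc hx _
  have key : ∀ z : κ → ℝ, uu x (1 - σ) F z - (pin x (1 - σ) t F (uu x t F) z *
      Real.exp (-x * uu x (1 - σ) F z) - uu x (1 - σ) F z) ≤
      ∫ w, uu x t F (z + √(t - (1 - σ)) • w) ∂(gI κ) := by
    intro z
    have h2 := tangent0 (hU.shift z (√(t - (1 - σ)))) (hcU.shift z (√(t - (1 - σ)))) hx
    have h3 := KL_layer (t := 1 - σ) (t' := t) h hx h0 h1 z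
    rw [W_shift] at h2
    have e3 : W x (√(t - (1 - σ))) (uu x t F) z = uu x (1 - σ) F z := by
      unfold uu
      refine W_W h.lip h.B0 hx ?_ z
      rw [Real.sq_sqrt (by linarith), Real.sq_sqrt (by linarith), Real.sq_sqrt (by linarith)]
      ring
    rw [e3] at h2
    have e5 : KL (fun w => uu x t F (z + √(t - (1 - σ)) • w)) x / x =
        pin x (1 - σ) t F (uu x t F) z * Real.exp (-x * uu x (1 - σ) F z) -
          uu x (1 - σ) F z := by
      have hE := Real.exp_pos (x * uu x (1 - σ) F z)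
      have e6 : Real.exp (-x * uu x (1 - σ) F z) = (Real.exp (x * uu x (1 - σ) F z))⁻¹ := by
        rw [← Real.exp_neg]; congr 1; ring
      rw [e6]
      field_simp
      linarith
    rw [e5] at h2
    exact h2
  have eg1 := EG.smul' (eg_ein h hx (eg_uu h hx t) (1 - σ) t) (√(1 - σ))
  have eg2 := EG.smul' (eg_uu h hx (1 - σ)) (√(1 - σ))
  have eg3 := EG.smul' (EG.conv (eg_uu h hx t) (√(t - (1 - σ)))) (√(1 - σ))
  have h3 := integral_mono (eg2.sub (eg1.sub eg2)).integrable eg3.integrable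
    fun z => key (√(1 - σ) • z)
  have hrot : (√(1 - σ)) ^ 2 + (√(t - (1 - σ))) ^ 2 = (√t) ^ 2 := by
    rw [Real.sq_sqrt (by linarith), Real.sq_sqrt (by linarith), Real.sq_sqrt (by linarith)]
    ring
  have h4 := gI_rot (eg_uu h hx t) hrot 0
  simp only [zero_add] at h4
  rw [h4, integral_sub eg2.integrable (eg1.sub eg2).integrable,
    integral_sub eg1.integrable eg2.integrable] at h3
  have e7 : ∫ z, pin x (1 - σ) t F (uu x t F) (√(1 - σ) • z) *
        Real.exp (-x * uu x (1 - σ) F (√(1 - σ) • z)) ∂(gI κ) = Vin x σ t F := rfl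
  rw [e7, ← Vin_base (x := x) (F := F) σ, hV, Vin_base] at h3
  have h5 : ∫ r in (1 - σ)..t, Qin x σ r F D ≤ (t - (1 - σ)) * Qin x σ t F D := by
    have i1 := Qin_int (D := D) h hx (s := σ) (a := 1 - σ) (b := t) le_rfl h0 h1
    have k2 := intervalIntegral.integral_mono_on (a := 1 - σ) (b := t) h0 i1 (by simp)
      (g := fun _ => Qin x σ t F D) fun r hr => Qin_mono h hx hr.1 hr.2 h1
    rwa [intervalIntegral.integral_const, smul_eq_mul] at k2
  have h6 := mul_le_mul_of_nonneg_left h5 (by positivity : 0 ≤ x / 2)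
  have e8 : DD x (1 - t) F = ∫ z, uu x t F (√t • z) ∂(gI κ) - ∫ z, F z ∂(gI κ) := by
    unfold DD
    have : (1 : ℝ) - (1 - t) = t := by ring
    rw [this]
  rw [e8]
  unfold DD
  linarith

/-! ### the transport inequality at `θ = -1` -/

/-- with `t0 = 0` the first position is `0` -/
lemma Eu_z0 {θ t1 s : ℝ} (Ψ : (κ → ℝ) → (κ → ℝ) → (κ → ℝ) → ℝ) :
    Eu x θ 0 t1 s F Ψ = Eu x θ 0 t1 s F (fun _ z1 z2 => Ψ 0 z1 z2) := by
  unfold Eu
  refine integral_congr_ae (Eventually.of_forall fun w => ?_)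
  have e : q0 (κ := κ) 0 w = 0 := by
    unfold q0
    rw [Real.sqrt_zero, zero_smul]
  simp only [e]

/-- means of functions of the position at the start -/
lemma Et_start {ψ : (κ → ℝ) → ℝ} (h : C11 F D B L) (hx : 0 < x) (hψ : EG ψ)
    (h0 : 1 - σ ≤ t) (h1 : t ≤ 1) :
    R1.Et x (-1) 0 (1 - σ) t F (fun _ z1 _ => ψ z1) = ∫ z, ψ (√(1 - σ) • z) ∂(gI κ) := by
  have e1 := Et_fst_eq (θ := -1) (t0 := 0) (ψ := fun _ z1 => ψ z1) h hx (E3.of1 hψ) h0 h1
  have e2 : R1.Et x (-1) 0 (1 - σ) (1 - σ) F (fun _ z1 _ => ψ z1) =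
      R1.Et x (-1) 0 (1 - σ) (1 - σ) F (fun _ _ z2 => ψ z2) := by
    have e3 : Eu x (-1) 0 (1 - σ) (1 - σ) F (fun _ z1 _ => ψ z1) =
        Eu x (-1) 0 (1 - σ) (1 - σ) F (fun _ _ z2 => ψ z2) := by
      unfold Eu
      refine integral_congr_ae (Eventually.of_forall fun w => ?_)
      simp only
      have e4 : q2 (κ := κ) 0 (1 - σ) (1 - σ) w = q1 0 (1 - σ) w := by
        unfold q2
        rw [sub_self, Real.sqrt_zero, zero_smul, add_zero]
      rw [e4]
    unfold R1.Et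
    rw [e3]
  rw [e1, e2, Et_win h hx hψ le_rfl (h0.trans h1), Ein_base]

/-- the Laplace transform of the start is trivial -/
lemma Lth_win (h : C11 F D B L) (hx : 0 < x) (hσ : 0 ≤ σ) :
    Lth x (-1) 0 (1 - σ) F = 0 := by
  unfold Lth
  rw [Eu_win h hx (EG.const 1) σ (1 - σ), Ein_one h hx le_rfl (by linarith), mul_one,
    Real.log_exp, log_int_exp h hx]
  unfold phi uu
  rw [sub_zero, Real.sqrt_one, sub_self]

/-- the mean of `ξ` -/
lemma Et_xi_win (h : C11 F D B L) (hx : 0 < x) (h0 : 1 - σ ≤ t) (h1 : t ≤ 1) :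
    -1 * R1.Et x (-1) 0 (1 - σ) t F (fun z0 z1 _ => xi x 0 (1 - σ) F z0 z1) =
      x * (DD x 1 F - DD x σ F) := by
  have e1 : R1.Et x (-1) 0 (1 - σ) t F (fun z0 z1 _ => xi x 0 (1 - σ) F z0 z1) =
      R1.Et x (-1) 0 (1 - σ) t F
        (fun _ z1 _ => x * (uu x (1 - σ) F z1 - uu x 0 F 0)) := by
    unfold R1.Et
    rw [Eu_z0 (fun z0 z1 _ => xi x 0 (1 - σ) F z0 z1)]
    rfl
  have eU := eg_uu h hx (1 - σ)
  rw [e1, Et_start (ψ := fun z => x * (uu x (1 - σ) F z - uu x 0 F 0)) h hx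
    ((eU.sub (EG.const _)).const_mul x) h0 h1, integral_const_mul,
    integral_sub (EG.smul' eU _).integrable (integrable_const _)]
  simp only [integral_const, probReal_univ, smul_eq_mul, one_mul]
  have e2 : DD x 1 F = uu x 0 F 0 - ∫ z, F z ∂(gI κ) := by
    unfold DD
    simp
  rw [e2]
  unfold DD
  ring

/-- the cross term is nonnegative -/
lemma Et_cr_nonneg [DecidableEq κ] (h : C11 F D B L) (hx : 0 < x) (h0 : 1 - σ ≤ t) (h1 : t ≤ 1)
    (hσ1 : σ ≤ 1) : 0 ≤ R1.Et x (-1) 0 (1 - σ) t F (H785.cr x 0 (1 - σ) t F D) := by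
  have e1 : R1.Et x (-1) 0 (1 - σ) t F (H785.cr x 0 (1 - σ) t F D) =
      (1 - σ) * R1.Et x (-1) 0 (1 - σ) t F
        (fun _ z1 z2 => ∑ e, dd x (1 - σ) F D e z1 * dd x t F D e z2) := by
    rw [← R1.Et_const_mul]
    congr 1
    funext z0 z1 z2
    unfold H785.cr
    rw [Finset.mul_sum]
    exact Finset.sum_congr rfl fun e _ => by ring
  rw [e1, H785.Et_dot1 h hx h0 h1]
  refine mul_nonneg (by linarith) (Et_nonneg h hx fun _ z1 _ => ?_)
  exact Finset.sum_nonneg fun _ _ => sq_nonneg _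

/-- the energy of the full tilt -/
lemma Phi_Qin (h : C11 F D B L) (hx : 0 < x) (t : ℝ) : Phi x F D t = Qin x 1 t F D := by
  unfold Phi Qin Ein pin Nm
  simp only [sub_self, Real.sqrt_zero, zero_smul, sub_zero, zero_add, integral_const,
    probReal_univ, one_smul]
  have e2 : Real.exp (-x * uu x 0 F 0) = (∫ z, Real.exp (x * F z) ∂(gI κ))⁻¹ := by
    have h2 := log_int_exp h hx
    have hp : 0 < ∫ z, Real.exp (x * F z) ∂(gI κ) := integral_exp_pos (h.eg_exp x).integrable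
    have e3 : x * uu x 0 F 0 = Real.log (∫ z, Real.exp (x * F z) ∂(gI κ)) := by
      rw [h2]
      unfold phi uu
      rw [sub_zero, Real.sqrt_one]
    rw [neg_mul, e3, Real.exp_neg, Real.exp_log hp]
  rw [e2, ← div_eq_mul_inv]
  rfl

lemma GG_le_DD (h : C11 F D B L) (hc : Cv F) (hx : 0 < x) :
    x / 2 * GG x F D ≤ DD (2 * x) 1 F - DD x 1 F := by
  have h2 := DD_tan (D := D) h hc hx (y := 2 * x) (by positivity) zero_le_one le_rfl
  have e : (2 * x - x) / 2 = x / 2 := by ring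
  rw [e] at h2
  have e2 : GG x F D = ∫ r in (1 - 1 : ℝ)..1, Qin x 1 r F D := by
    unfold GG
    simp only [Phi_Qin h hx, sub_self]
  rw [e2]
  linarith

/-- **The transport inequality in the law of one window.** -/
theorem star_win [DecidableEq κ] {H T : κ → κ → (κ → ℝ) → ℝ} {M c s : ℝ}
    (hS : Sm F D B L H T M) (hc : Cv F) (hx : 0 < x) (hσ : 0 ≤ σ) (hσ1 : σ ≤ 1)
    (h1 : 1 - σ ≤ s) (hs0 : 0 < s) (hs : s ≤ 1) (hc0 : 0 ≤ c) :
    c * x * Qt x (-1) 0 (1 - σ) s F D - c ^ 2 / 2 * (Qt x (-1) 0 (1 - σ) s F D / s +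
      Ht x (-1) 0 (1 - σ) s F D H) ≤ 3 * x * DD (4 * x) 1 F := by
  have k1 := H785.star_raw (θ := -1) (t0 := 0) (t1 := 1 - σ) (H785.sm_c2 hS hc) hc hx le_rfl
    (by linarith) h1 hs0 hs hc0
  have h := hS.c11
  have k2 := Et_xi_win (t := s) h hx h1 hs
  have k3 := Et_cr_nonneg (D := D) (t := s) h hx h1 hs hσ1
  have k4 : Lth x (-1) 0 (1 - σ) F = 0 := Lth_win h hx hσ
  have k5 := GG_le_DD (x := 2 * x) (D := D) h hc (by positivity)
  have k6 : DD (2 * x) 1 F ≤ DD (4 * x) 1 F :=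
    DD_mono h hc (by positivity) (by linarith) zero_le_one le_rfl
  have k7 : DD x 1 F ≤ DD (4 * x) 1 F := DD_mono h hc hx (by linarith) zero_le_one le_rfl
  have k8 : 0 ≤ DD x σ F := DD_nonneg h hx hσ hσ1
  have k9 : 0 ≤ DD (2 * x) 1 F := DD_nonneg h (by positivity) zero_le_one le_rfl
  have e4 : 2 * (2 * x) = 4 * x := by ring
  rw [e4] at k5
  rw [k4, k2] at k1
  have hcx : 0 ≤ c * x / s * R1.Et x (-1) 0 (1 - σ) s F (H785.cr x 0 (1 - σ) s F D) :=
    mul_nonneg (by positivity) k3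
  have e5 : c * -1 * x / s * R1.Et x (-1) 0 (1 - σ) s F (H785.cr x 0 (1 - σ) s F D) =
      -(c * x / s * R1.Et x (-1) 0 (1 - σ) s F (H785.cr x 0 (1 - σ) s F D)) := by ring
  rw [e5] at k1
  have h6 : x ^ 2 * GG (2 * x) F D ≤ x * (DD (4 * x) 1 F - DD (2 * x) 1 F) := by
    have := mul_le_mul_of_nonneg_left k5 hx.le
    nlinarith
  have h7 : x * (DD x 1 F - DD x σ F) ≤ x * DD (4 * x) 1 F :=
    mul_le_mul_of_nonneg_left (by linarith) hx.le
  have h8 : x * (DD (4 * x) 1 F - DD (2 * x) 1 F) ≤ x * DD (4 * x) 1 F :=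
    mul_le_mul_of_nonneg_left (by linarith) hx.le
  change _ ≤ _ at k1
  have e9 : Ht x (-1) 0 (1 - σ) s F D H =
      R1.Et x (-1) 0 (1 - σ) s F (fun _ _ z2 => hq x s F D H z2) := rfl
  rw [e9]
  linarith

/-- **The rate from below.** -/
theorem rate_low [DecidableEq κ] {H T : κ → κ → (κ → ℝ) → ℝ} {M s E q0 : ℝ}
    (hS : Sm F D B L H T M) (hc : Cv F) (hx : 0 < x) (hσ : 0 ≤ σ) (hσ1 : σ ≤ 1)
    (h1 : 1 - σ ≤ s) (hs0 : 1 / 2 ≤ s) (hs : s ≤ 1) (hE : 3 * DD (4 * x) 1 F ≤ E) (hE0 : 0 < E)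
    (hq0 : 0 < q0) (hq : q0 ≤ Qt x (-1) 0 (1 - σ) s F D) (hqE : 8 * E ≤ x * q0) :
    x * q0 ^ 2 / (4 * E) ≤ Ht x (-1) 0 (1 - σ) s F D H := by
  obtain ⟨Q, hQ⟩ : ∃ Q, Q = Qt x (-1) 0 (1 - σ) s F D := ⟨_, rfl⟩
  obtain ⟨R, hR⟩ : ∃ R, R = Ht x (-1) 0 (1 - σ) s F D H := ⟨_, rfl⟩
  rw [← hQ] at hq
  rw [← hR]
  have hQ0 : 0 < Q := hq0.trans_le hq
  have k1 := star_win (c := 2 * E / Q) hS hc hx hσ hσ1 h1 (by linarith) hs (by positivity)
  rw [← hQ, ← hR] at k1
  have k2 : 3 * x * DD (4 * x) 1 F ≤ x * E := by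
    have := mul_le_mul_of_nonneg_left hE hx.le
    linarith
  have k3 : 2 * E / Q * x * Q = 2 * (x * E) := by field_simp
  have k4 : (2 * E / Q) ^ 2 / 2 * (Q / s + R) = 2 * E ^ 2 / Q ^ 2 * (Q / s + R) := by
    field_simp
  rw [k3, k4] at k1
  have k5 : x * E ≤ 2 * E ^ 2 / Q ^ 2 * (Q / s + R) := by linarith
  have k6 : x * Q ^ 2 / (2 * E) ≤ Q / s + R := by
    rw [div_le_iff₀ (by positivity)]
    have h2 := mul_le_mul_of_nonneg_left k5 (by positivity : 0 ≤ Q ^ 2 / E)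
    have e1 : Q ^ 2 / E * (x * E) = x * Q ^ 2 := by field_simp
    have e2 : Q ^ 2 / E * (2 * E ^ 2 / Q ^ 2 * (Q / s + R)) = (Q / s + R) * (2 * E) := by
      field_simp
    rw [e1, e2] at h2
    exact h2
  have k7 : Q / s ≤ 2 * Q := by
    rw [div_le_iff₀ (by linarith)]
    nlinarith
  have k8 : 8 * E ≤ x * Q := hqE.trans (mul_le_mul_of_nonneg_left hq hx.le)
  have k9 : 2 * Q ≤ x * Q ^ 2 / (4 * E) := by
    rw [le_div_iff₀ (by positivity)]
    nlinarith
  have k10 : x * Q ^ 2 / (2 * E) = x * Q ^ 2 / (4 * E) + x * Q ^ 2 / (4 * E) := by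
    field_simp
    ring
  have k11 : x * q0 ^ 2 / (4 * E) ≤ x * Q ^ 2 / (4 * E) := by
    gcongr
  linarith

/-- **Growth between two times of the window.** -/
theorem grow_win [DecidableEq κ] {H T : κ → κ → (κ → ℝ) → ℝ} {M a b E q0 : ℝ}
    (hS : Sm F D B L H T M) (hc : Cv F) (hx : 0 < x) (hσ : 0 < σ) (hσ1 : σ ≤ 1 / 2)
    (ha : 1 - σ ≤ a) (hab : a ≤ b) (hb : b ≤ 1) (hE : 3 * DD (4 * x) 1 F ≤ E) (hE0 : 0 < E)
    (hq0 : 0 < q0) (hq : q0 ≤ Qt x (-1) 0 (1 - σ) a F D) (hqE : 8 * E ≤ x * q0) :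
    x * q0 ^ 2 / (4 * E) * (b - a) ≤ Qt x (-1) 0 (1 - σ) b F D - Qt x (-1) 0 (1 - σ) a F D := by
  have ht1 : 1 - σ < 1 := by linarith
  have k1 := Qt_ftc hS hx (-1) 0 ht1 ha hab hb
  rw [← k1]
  have i2 : IntervalIntegrable (fun s => Ht x (-1) 0 (1 - σ) s F D H) volume a b := by
    refine ContinuousOn.intervalIntegrable ?_
    rw [Set.uIcc_of_le hab]
    exact (Ht_cont hS hx (-1) 0 ht1).mono (Set.Icc_subset_Icc ha hb)
  have k2 := intervalIntegral.integral_mono_on (a := a) (b := b) hab (by simp) i2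
    (f := fun _ => x * q0 ^ 2 / (4 * E)) fun r hr => rate_low hS hc hx hσ.le (by linarith)
      (ha.trans hr.1) (by linarith [hr.1]) (hr.2.trans hb) hE hE0 hq0
      (hq.trans (Qt_mono hS hx (-1) 0 ht1 ha hr.1 (hr.2.trans hb))) hqE
  rw [intervalIntegral.integral_const, smul_eq_mul] at k2
  linarith

end gen

end Vale.Agent.P146.H641
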