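import Vale.Agent.P146.H641.GrowNum

/-!
# P146: the field `gr` of the law of one window, for all large `n`
-/

open MeasureTheory ProbabilityTheory Filter Topology

namespace Vale.Agent.P146.H641

open Vale.Agent.P157.Lv Vale.Agent.P146.H425 Vale.Agent.P146.H332 Vale.Agent.P146.H767
  Vale.Agent.P146.H325
open Vale.Agent.P146.R1 Vale.Agent.P146.H432

set_option linter.unusedSectionVars false

/-- a power beats a constant times a smaller power -/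
lemma pow_beats {C al : ℝ} (h : C < al) (K : ℝ) :
    ∀ᶠ n : ℕ in atTop, K * (n : ℝ) ^ C ≤ (n : ℝ) ^ al := by
  have h1 : Tendsto (fun n : ℕ => (n : ℝ) ^ (al - C)) atTop atTop :=
    (tendsto_rpow_atTop (by linarith)).comp tendsto_natCast_atTop_atTop
  filter_upwards [h1.eventually_ge_atTop K, eventually_gt_atTop 0] with n h2 hn
  have hnp : (0 : ℝ) < n := Nat.cast_pos.2 hn
  have e : (n : ℝ) ^ al = (n : ℝ) ^ (al - C) * (n : ℝ) ^ C := by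
    rw [← Real.rpow_add hnp]
    congr 1
    ring
  rw [e]
  exact mul_le_mul_of_nonneg_right h2 (Real.rpow_nonneg hnp.le _)

/-- **The field `gr` at a good window, deep, all large `n`**: the numbers are those of the free
energy, `(EC)` is `Dn (4 x) 1 ≤ n^C Dn x s`. -/
theorem gr_ev {β : ℝ} (hβ : 0 < β) {κ C al : ℝ} (hκ : 0 < κ) (hκ1 : κ ≤ 1) (hC : 0 ≤ C)
    (hal : C < al) : ∀ᶠ n : ℕ in atTop, ∀ (m σ : ℕ → ℝ) (J : ℕ), Lay n β m σ J →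
      ∀ x s s1 s2 : ℝ, 0 < s → s ≤ 1 / 2 →
      (n : ℝ) ^ (1 / 6 + κ : ℝ) ≤ Dn n β x s →
      Dn n β x (7 / 8 * s) ≤ (1 - κ) * Dn n β x s →
      Dn n β (4 * x) 1 ≤ (n : ℝ) ^ C * Dn n β x s →
      ∀ (S : R1S.CS n (β / √n) x) (B L M : ℝ) (HF TF : Pair n → Pair n → (Pair n → ℝ) → ℝ),
      S.F = Fz n β m σ J → Sm S.F S.D B L HF TF M →
      1 - 7 / 8 * s ≤ s1 → s1 + s / 4 ≤ s2 → s2 ≤ 1 → 2 * s ≤ 1 / (n : ℝ) ^ al →
      R1C.NN n β (2 * Dn n β x s / (x * s)) / (n : ℝ) ^ al ≤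
        R1C.En ⟨x, -1, 0, 1 - s, s1, s2⟩ S.F
          (fun w => fr (S.A s2 (R1C.P3 ⟨x, -1, 0, 1 - s, s1, s2⟩ w))) -
        R1C.En ⟨x, -1, 0, 1 - s, s1, s2⟩ S.F
          (fun w => fr (S.A s1 (R1C.P2 ⟨x, -1, 0, 1 - s, s1, s2⟩ w))) := by
  have hlim : Tendsto (fun n : ℕ => (n : ℝ) ^ (-κ)) atTop (𝓝 0) :=
    (tendsto_rpow_neg_atTop hκ).comp tendsto_natCast_atTop_atTop
  have hev : ∀ᶠ n : ℕ in atTop, (n : ℝ) ^ (-κ) < κ / 4 :=
    hlim.eventually_lt_const (by positivity)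
  filter_upwards [hev, pow_beats hal (24 * 2 / (κ / 4) ^ 2), eventually_gt_atTop 0] with
    n hn hA hn0 m σ J hL x s s1 s2 hs hs1 h1 h2 h3 S B L M HF TF hF hS g1 g2 g3 g4
  have hnp : (0 : ℝ) < n := Nat.cast_pos.2 hn0
  have hn1 : (1 : ℝ) ≤ n := by exact_mod_cast hn0
  have hx := S.x0
  obtain ⟨D0, hD0⟩ : ∃ D0, D0 = Dn n β x s := ⟨_, rfl⟩
  have hp : (n : ℝ) ^ (1 / 6 : ℝ) ≤ (n : ℝ) ^ (-κ) * Dn n β x s := by
    have e : (n : ℝ) ^ (1 / 6 : ℝ) = (n : ℝ) ^ (-κ) * (n : ℝ) ^ (1 / 6 + κ : ℝ) := by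
      rw [← Real.rpow_add hnp]
      congr 1
      ring
    rw [e]
    exact mul_le_mul_of_nonneg_left h1 (Real.rpow_nonneg hnp.le _)
  have hDp : 0 < Dn n β x s := lt_of_lt_of_le (Real.rpow_pos_of_pos hnp _) h1
  have k1 := abs_le.1 (DD_deep hn0 hL hx s)
  have k2 := abs_le.1 (DD_deep hn0 hL hx (7 / 8 * s))
  have k3 := abs_le.1 (DD_deep hn0 hL (x := 4 * x) (by positivity) 1)
  rw [← hF] at k1 k2 k3
  rw [← hD0] at h1 h2 h3 hp hDp k1 ⊢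
  have q2 : (n : ℝ) ^ (-κ) * D0 ≤ κ / 4 * D0 := mul_le_mul_of_nonneg_right hn.le hDp.le
  have hG1 : 1 ≤ (n : ℝ) ^ C := Real.one_le_rpow hn1 hC
  refine gr_num (κ := κ / 4) (G := 2 * (n : ℝ) ^ C) hn0 hβ S hS hs hs1 hDp (by positivity)
    (by linarith) (by linarith) (by linarith [k1.1, k2.2]) ?_ ?_ g1 g2 g3 g4
  · have q3 : κ / 4 * D0 ≤ (n : ℝ) ^ C * D0 :=
      mul_le_mul_of_nonneg_right (by linarith) hDp.le
    linarith [k3.2]
  · refine le_trans (le_of_eq ?_) hA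
    ring

end Vale.Agent.P146.H641
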