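import Vale.Agent.P146.H641.Grow
import Vale.Agent.P146.H641.DeepNum

/-!
# P146: the field `gr` of the law of one window, in numbers
-/

open MeasureTheory ProbabilityTheory Filter Topology

namespace Vale.Agent.P146.H641

open Vale.Agent.P157.Lv Vale.Agent.P146.H425 Vale.Agent.P146.H332 Vale.Agent.P146.H767
  Vale.Agent.P146.H325
open Vale.Agent.P146.R1 Vale.Agent.P146.H432

set_option linter.unusedSectionVars false

lemma eg_frA {n : ℕ} {k x : ℝ} (S : R1S.CS n k x) (t : ℝ) :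
    EG fun z : Pair n → ℝ => fr (S.A t z) := by
  unfold fr
  exact EG.sum _ fun i _ => EG.sum _ fun j _ => (S.eg_A t i j).pow 2

/-- the mean squared gradient in the letters of `CS` -/
lemma Qt_frA {n : ℕ} {k x : ℝ} (S : R1S.CS n k x) (θ t0 t1 s : ℝ) :
    R1.Qt x θ t0 t1 s S.F S.D =
      k ^ 2 / 2 * R1.Et x θ t0 t1 s S.F (fun _ _ z2 => fr (S.A s z2)) - k ^ 2 / 2 * n := by
  have h := S.c11
  have e1 : R1.Qt x θ t0 t1 s S.F S.D = R1.Et x θ t0 t1 s S.F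
      (fun _ _ z2 => k ^ 2 / 2 * fr (S.A s z2) - k ^ 2 / 2 * n) := by
    unfold R1.Qt
    congr 1
    funext _ _ z2
    rw [S.sq_A]
    ring
  rw [e1, R1.Et_sub h S.x0 (E3.of2 ((eg_frA S s).const_mul _)) (E3.const _), R1.Et_const_mul,
    R1.Et_const h S.x0]

/-- **The field `gr`** at `θ = -1`, `t0 = 0`, `t1 = 1 - σ`, `T = 2 σ`, `ρ = 2 D0 / (x σ)`:
`h1` is the late hypothesis, `h2` the comparison with the total energy. -/
theorem gr_num {n : ℕ} (hn : 0 < n) {β : ℝ} (hβ : 0 < β) {x σ s1 s2 D0 κ G A : ℝ}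
    (S : R1S.CS n (β / √n) x) {B L M : ℝ} {HF TF : Pair n → Pair n → (Pair n → ℝ) → ℝ}
    (hS : Sm S.F S.D B L HF TF M) (hσ : 0 < σ) (hσ1 : σ ≤ 1 / 2) (hD0 : 0 < D0) (hκ : 0 < κ)
    (hκ1 : κ ≤ 1) (hG : 1 ≤ G) (h1 : κ * D0 ≤ DD x σ S.F - DD x (7 / 8 * σ) S.F)
    (h2 : DD (4 * x) 1 S.F ≤ G * D0) (hA : 24 * G / κ ^ 2 ≤ A) (hs1 : 1 - 7 / 8 * σ ≤ s1)
    (hs12 : s1 + σ / 4 ≤ s2) (hs2 : s2 ≤ 1) (hT : 2 * σ ≤ 1 / A) :
    R1C.NN n β (2 * D0 / (x * σ)) / A ≤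
      R1C.En ⟨x, -1, 0, 1 - σ, s1, s2⟩ S.F
        (fun w => fr (S.A s2 (R1C.P3 ⟨x, -1, 0, 1 - σ, s1, s2⟩ w))) -
      R1C.En ⟨x, -1, 0, 1 - σ, s1, s2⟩ S.F
        (fun w => fr (S.A s1 (R1C.P2 ⟨x, -1, 0, 1 - σ, s1, s2⟩ w))) := by
  have hx := S.x0
  have hc := S.cv
  have h := S.c11
  have hnp : (0 : ℝ) < n := Nat.cast_pos.2 hn
  have hA24 : 24 * G ≤ A * κ ^ 2 := by
    rwa [div_le_iff₀ (by positivity)] at hA
  have hA0 : 0 < A := by
    by_contra hcon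
    push Not at hcon
    have : A * κ ^ 2 ≤ 0 := mul_nonpos_of_nonpos_of_nonneg hcon (by positivity)
    linarith
  have hκ2 : κ ^ 2 ≤ κ := by nlinarith
  have hσA : σ * (12 * G) ≤ κ := by
    rw [le_div_iff₀ hA0] at hT
    have e1 : 2 * σ * (24 * G) ≤ 2 * σ * (A * κ ^ 2) :=
      mul_le_mul_of_nonneg_left hA24 (by positivity)
    have e2 : 2 * σ * (A * κ ^ 2) = (2 * σ * A) * κ ^ 2 := by ring
    have e3 : (2 * σ * A) * κ ^ 2 ≤ 1 * κ ^ 2 := mul_le_mul_of_nonneg_right hT (by positivity)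
    nlinarith
  -- the lower bound of the mean squared gradient at `s1`
  have hs1' : 1 - σ ≤ s1 := by linarith
  have hs11 : s1 ≤ 1 := by linarith
  have k1 := Qin_ge (D := S.D) (t := s1) h hc hx hs1' hs11 (by linarith : σ ≤ 1)
  have k2 : DD x (1 - s1) S.F ≤ DD x (7 / 8 * σ) S.F :=
    DD_mono_s h hx (by linarith) (by linarith) (by linarith)
  have k3 : κ * D0 ≤ x / 2 * ((s1 - (1 - σ)) * Qin x σ s1 S.F S.D) := by linarith
  have hQn : 0 ≤ Qin x σ s1 S.F S.D := Qin_nonneg hx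
  have k4 : (s1 - (1 - σ)) * Qin x σ s1 S.F S.D ≤ σ * Qin x σ s1 S.F S.D :=
    mul_le_mul_of_nonneg_right (by linarith) hQn
  have k5 : κ * D0 ≤ x / 2 * (σ * Qin x σ s1 S.F S.D) :=
    k3.trans (mul_le_mul_of_nonneg_left k4 (by positivity))
  have hq : 2 * κ * D0 / (x * σ) ≤ R1.Qt x (-1) 0 (1 - σ) s1 S.F S.D := by
    rw [Qt_win h hx hs1' hs11, div_le_iff₀ (by positivity)]
    linarith
  have hE0 : 0 < 3 * (G * D0) := by positivity
  have hq0 : 0 < 2 * κ * D0 / (x * σ) := by positivity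
  have hqE : 8 * (3 * (G * D0)) ≤ x * (2 * κ * D0 / (x * σ)) := by
    have e1 : x * (2 * κ * D0 / (x * σ)) = 2 * κ * D0 / σ := by field_simp
    rw [e1, le_div_iff₀ hσ]
    have := mul_le_mul_of_nonneg_right hσA hD0.le
    nlinarith
  have key := grow_win (σ := σ) (a := s1) (b := s2) (E := 3 * (G * D0))
    (q0 := 2 * κ * D0 / (x * σ)) hS hc hx hσ hσ1 hs1' (by linarith) hs2 (by linarith) hE0 hq0
    hq hqE
  have e0 : x * (2 * κ * D0 / (x * σ)) ^ 2 / (4 * (3 * (G * D0))) =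
      κ ^ 2 * D0 / (3 * G * (x * σ ^ 2)) := by
    field_simp
    ring
  rw [e0] at key
  have k6 : κ ^ 2 * D0 / (3 * G * (x * σ ^ 2)) * (σ / 4) ≤
      κ ^ 2 * D0 / (3 * G * (x * σ ^ 2)) * (s2 - s1) :=
    mul_le_mul_of_nonneg_left (by linarith) (by positivity)
  have k7 : 2 * D0 / (x * σ) / A ≤ κ ^ 2 * D0 / (3 * G * (x * σ ^ 2)) * (σ / 4) := by
    have e1 : κ ^ 2 * D0 / (3 * G * (x * σ ^ 2)) * (σ / 4) =
        2 * D0 / (x * σ) * (κ ^ 2 / (24 * G)) := by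
      field_simp
      ring
    rw [e1, div_eq_mul_one_div]
    refine mul_le_mul_of_nonneg_left ?_ (by positivity)
    rw [div_le_div_iff₀ hA0 (by positivity)]
    linarith
  -- the dictionary
  have e2 : R1C.En ⟨x, -1, 0, 1 - σ, s1, s2⟩ S.F
      (fun w => fr (S.A s1 (R1C.P2 ⟨x, -1, 0, 1 - σ, s1, s2⟩ w))) =
      R1.Et x (-1) 0 (1 - σ) s1 S.F (fun _ _ z2 => fr (S.A s1 z2)) :=
    (R1C.En_eq ⟨x, -1, 0, 1 - σ, s1, s2⟩ S.F fun _ _ z2 _ => fr (S.A s1 z2)).trans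
      (Et4_123 S.c11 hx (E3.of2 (eg_frA S s1)) (by simp only; linarith) (by simp only; linarith))
  have e3 : R1C.En ⟨x, -1, 0, 1 - σ, s1, s2⟩ S.F
      (fun w => fr (S.A s2 (R1C.P3 ⟨x, -1, 0, 1 - σ, s1, s2⟩ w))) =
      R1.Et x (-1) 0 (1 - σ) s2 S.F (fun _ _ z2 => fr (S.A s2 z2)) :=
    (R1C.En_eq ⟨x, -1, 0, 1 - σ, s1, s2⟩ S.F fun _ _ _ z3 => fr (S.A s2 z3)).trans
      (Et4_124 S.c11 hx (E3.of2 (eg_frA S s2)) (by simp only; linarith) (by simp only; linarith))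
  rw [Qt_frA S, Qt_frA S] at key
  rw [e2, e3]
  have hk : (β / √n) ^ 2 = β ^ 2 / n := by rw [div_pow, Real.sq_sqrt hnp.le]
  have hk0 : 0 < (β / √n) ^ 2 / 2 := by
    rw [hk]
    positivity
  refine le_of_mul_le_mul_left ?_ hk0
  have e4 : (β / √n) ^ 2 / 2 * (R1C.NN n β (2 * D0 / (x * σ)) / A) = 2 * D0 / (x * σ) / A := by
    rw [hk]
    unfold R1C.NN
    field_simp
  rw [e4, mul_sub]
  linarith

end Vale.Agent.P146.H641
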