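import Vale.Agent.P146.H605.LogCc
import Vale.Agent.P146.H605.Gauge

/-!
# P146: the law of `F_n + Exp(1)` has a log-concave tail

The spin-flip symmetry of the disorder gives `E θ(F) = 2^n E e^{β H(1) - F} θ(F)` for every
function `θ` of the free energy `F`.  For `θ(F) = min(1, e^{F-a})` the right-hand side is
`2^n E exp(β H(1) - max(F, a))`, whose exponent is jointly concave in `a` and the disorder, so by
Prekopa-Leindler `T(a) = E min(1, e^{F-a})` is log-concave.
-/

open MeasureTheory ProbabilityTheory Set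
open scoped ENNReal NNReal

namespace Vale.Agent.P146.H641

open Vale.Agent.P146.H605 Vale.Agent.P146.H605.Gauge

variable (n : ℕ) (β : ℝ)

/-- the free energy is continuous -/
lemma continuous_freeEnergy : Continuous (freeEnergy n β) := by
  unfold freeEnergy
  refine Continuous.log ?_ fun g => (partitionFn_pos β g).ne'
  unfold partitionFn
  exact continuous_finsetSum _ fun τ _ =>
    Real.continuous_exp.comp (continuous_const.mul (continuous_hamiltonian τ))

variable {n β}

lemma exp_freeEnergy (g : Pair n → ℝ) : Real.exp (freeEnergy n β g) = partitionFn n β g :=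
  Real.exp_log (partitionFn_pos β g)

lemma gibbs_eq_exp (g : Pair n → ℝ) (σ : Fin n → ℤˣ) :
    gibbs n β g σ = Real.exp (β * hamiltonian n g σ - freeEnergy n β g) := by
  unfold gibbs
  rw [Real.exp_sub, exp_freeEnergy]

lemma freeEnergy_flip (s : Fin n → ℤˣ) (g : Pair n → ℝ) :
    freeEnergy n β (flip s g) = freeEnergy n β g := by
  unfold freeEnergy
  rw [partitionFn_flip]

/-- the Hamiltonian is linear in the disorder -/
lemma hamiltonian_comb (s t : ℝ) (x y : Pair n → ℝ) (σ : Fin n → ℤˣ) :
    hamiltonian n (s • x + t • y) σ = s * hamiltonian n x σ + t * hamiltonian n y σ := by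
  unfold hamiltonian
  have h : ∑ p : Pair n, (s • x + t • y) p * ((σ p.1.1 : ℤ) : ℝ) * ((σ p.1.2 : ℤ) : ℝ) =
      s * ∑ p : Pair n, x p * ((σ p.1.1 : ℤ) : ℝ) * ((σ p.1.2 : ℤ) : ℝ) +
      t * ∑ p : Pair n, y p * ((σ p.1.1 : ℤ) : ℝ) * ((σ p.1.2 : ℤ) : ℝ) := by
    rw [Finset.mul_sum, Finset.mul_sum, ← Finset.sum_add_distrib]
    refine Finset.sum_congr rfl fun p _ => ?_
    simp only [Pi.add_apply, Pi.smul_apply, smul_eq_mul]
    ring
  rw [h]
  ring

/-- the free energy is a convex function of the disorder -/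
lemma freeEnergy_comb {s t : ℝ} (hs : 0 < s) (ht : 0 < t) (hst : s + t = 1)
    (x y : Pair n → ℝ) :
    freeEnergy n β (s • x + t • y) ≤ s * freeEnergy n β x + t * freeEnergy n β y := by
  have hx := partitionFn_pos (n := n) β x
  have hy := partitionFn_pos (n := n) β y
  rw [← Real.exp_le_exp, exp_freeEnergy]
  have key : ∀ σ : Fin n → ℤˣ, Real.exp (β * hamiltonian n (s • x + t • y) σ) ≤
      Real.exp (s * freeEnergy n β x + t * freeEnergy n β y) *
        (s * gibbs n β x σ + t * gibbs n β y σ) := by
    intro σ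
    have h1 := Real.geom_mean_le_arith_mean2_weighted hs.le ht.le (gibbs_nonneg β x σ)
      (gibbs_nonneg β y σ) hst
    have h2 : Real.exp (β * hamiltonian n (s • x + t • y) σ) =
        Real.exp (s * freeEnergy n β x + t * freeEnergy n β y) *
          (gibbs n β x σ ^ s * gibbs n β y σ ^ t) := by
      rw [gibbs_eq_exp, gibbs_eq_exp, ← Real.exp_mul, ← Real.exp_mul, ← Real.exp_add,
        ← Real.exp_add, hamiltonian_comb]
      congr 1
      ring
    rw [h2]
    exact mul_le_mul_of_nonneg_left h1 (Real.exp_pos _).le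
  calc partitionFn n β (s • x + t • y)
      = ∑ σ : Fin n → ℤˣ, Real.exp (β * hamiltonian n (s • x + t • y) σ) := rfl
    _ ≤ ∑ σ : Fin n → ℤˣ, Real.exp (s * freeEnergy n β x + t * freeEnergy n β y) *
        (s * gibbs n β x σ + t * gibbs n β y σ) := Finset.sum_le_sum fun σ _ => key σ
    _ = Real.exp (s * freeEnergy n β x + t * freeEnergy n β y) := by
        rw [← Finset.mul_sum, Finset.sum_add_distrib, ← Finset.mul_sum, ← Finset.mul_sum,
          sum_gibbs, sum_gibbs, mul_one, mul_one, hst, mul_one]

variable (n β)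

/-- The gauge identity `E θ(F) = 2^n E e^{β H(1) - F} θ(F)`. -/
theorem gauge_lintegral {θ : ℝ → ℝ≥0∞} (hθ : Measurable θ) :
    ∫⁻ g, θ (freeEnergy n β g) ∂(disorder n) =
      2 ^ n * ∫⁻ g, ENNReal.ofReal (Real.exp (β * hamiltonian n g 1 - freeEnergy n β g)) *
        θ (freeEnergy n β g) ∂(disorder n) := by
  have hF := (continuous_freeEnergy n β).measurable
  have hm : ∀ σ : Fin n → ℤˣ, Measurable fun g : Pair n → ℝ =>
      ENNReal.ofReal (gibbs n β g σ) * θ (freeEnergy n β g) := fun σ =>
    ((continuous_gibbs β σ).measurable.ennreal_ofReal).mul (hθ.comp hF)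
  have h1 : ∫⁻ g, θ (freeEnergy n β g) ∂(disorder n) =
      ∑ σ : Fin n → ℤˣ, ∫⁻ g, ENNReal.ofReal (gibbs n β g σ) * θ (freeEnergy n β g)
        ∂(disorder n) := by
    rw [← lintegral_finsetSum _ fun σ _ => hm σ]
    refine lintegral_congr fun g => ?_
    rw [← Finset.sum_mul, ← ENNReal.ofReal_sum_of_nonneg fun σ _ => gibbs_nonneg β g σ,
      sum_gibbs, ENNReal.ofReal_one, one_mul]
  have h2 : ∀ σ : Fin n → ℤˣ, ∫⁻ g, ENNReal.ofReal (gibbs n β g σ) * θ (freeEnergy n β g)
      ∂(disorder n) = ∫⁻ g, ENNReal.ofReal (gibbs n β g 1) * θ (freeEnergy n β g)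
      ∂(disorder n) := by
    intro σ
    have h3 := (measurePreserving_flip σ).lintegral_comp (hm 1)
    rw [← h3]
    refine lintegral_congr fun g => ?_
    rw [gibbs_flip, freeEnergy_flip, mul_one]
  rw [h1, Finset.sum_congr rfl fun σ _ => h2 σ, Finset.sum_const, Finset.card_univ,
    nsmul_eq_mul]
  congr 1
  · simp [Fintype.card_units_int]
  · refine lintegral_congr fun g => ?_
    rw [gibbs_eq_exp]

/-- The regularised tail `T(a) = E min(1, e^{F-a}) = P(F + Exp(1) > a)`. -/
noncomputable def T (a : ℝ) : ℝ := ∫ g, min 1 (Real.exp (freeEnergy n β g - a)) ∂(disorder n)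

/-- The same with values in `[0,∞]`. -/
noncomputable def TL (a : ℝ) : ℝ≥0∞ :=
  ∫⁻ g, ENNReal.ofReal (min 1 (Real.exp (freeEnergy n β g - a))) ∂(disorder n)

lemma min_exp_pos (u : ℝ) : 0 < min 1 (Real.exp u) := lt_min one_pos (Real.exp_pos u)

lemma continuous_min (a : ℝ) :
    Continuous fun g : Pair n → ℝ => min 1 (Real.exp (freeEnergy n β g - a)) :=
  continuous_const.min (Real.continuous_exp.comp ((continuous_freeEnergy n β).sub
    continuous_const))

lemma integrable_min (a : ℝ) :
    Integrable (fun g : Pair n → ℝ => min 1 (Real.exp (freeEnergy n β g - a)))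
      (disorder n) := by
  refine Integrable.of_bound (continuous_min n β a).aestronglyMeasurable 1
    (Filter.Eventually.of_forall fun g => ?_)
  rw [Real.norm_eq_abs, abs_of_pos (min_exp_pos _)]
  exact min_le_left _ _

lemma TL_eq (a : ℝ) : TL n β a = ENNReal.ofReal (T n β a) := by
  unfold TL T
  rw [ofReal_integral_eq_lintegral_ofReal (integrable_min n β a)
    (Filter.Eventually.of_forall fun g => (min_exp_pos _).le)]

lemma T_pos (a : ℝ) : 0 < T n β a := by
  unfold T
  rw [integral_pos_iff_support_of_nonneg (fun g => (min_exp_pos _).le) (integrable_min n β a)]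
  have h : Function.support (fun g : Pair n → ℝ => min 1 (Real.exp (freeEnergy n β g - a))) =
      univ := by
    ext g
    simp only [Function.mem_support, mem_univ, iff_true]
    exact (min_exp_pos _).ne'
  rw [h, measure_univ]
  exact one_pos

lemma T_le_one (a : ℝ) : T n β a ≤ 1 := by
  unfold T
  have h := integral_mono (integrable_min n β a) (integrable_const (1 : ℝ))
    (μ := disorder n) fun g => min_le_left _ _
  simpa using h

lemma T_anti : Antitone (T n β) := by
  intro a b hab
  unfold T
  refine integral_mono (integrable_min n β b) (integrable_min n β a) fun g => ?_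
  exact min_le_min_left _ (Real.exp_le_exp.2 (by linarith))

/-- The gauge form `T(a) = 2^n E exp(β H(1) - max(F, a))`. -/
theorem TL_gauge (a : ℝ) : TL n β a = 2 ^ n * ∫⁻ g, ENNReal.ofReal
    (Real.exp (β * hamiltonian n g 1 - max (freeEnergy n β g) a)) ∂(disorder n) := by
  have h := gauge_lintegral n β (θ := fun u => ENNReal.ofReal (min 1 (Real.exp (u - a))))
    (by fun_prop)
  unfold TL
  rw [h]
  congr 1
  refine lintegral_congr fun g => ?_
  rw [← ENNReal.ofReal_mul (Real.exp_pos _).le]
  congr 1
  rcases le_total (freeEnergy n β g) a with h1 | h1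
  · rw [max_eq_right h1, min_eq_right (Real.exp_le_one_iff.2 (by linarith)), ← Real.exp_add]
    congr 1
    ring
  · rw [max_eq_left h1, min_eq_left (Real.one_le_exp (by linarith)), mul_one]

/-- `T` is log-concave. -/
theorem TL_pow {s t : ℝ} (hs : 0 < s) (ht : 0 < t) (hst : s + t = 1) (a b : ℝ) :
    TL n β a ^ s * TL n β b ^ t ≤ TL n β (s * a + t * b) := by
  have hm : ∀ a : ℝ, Measurable fun g : Pair n → ℝ => ENNReal.ofReal
      (Real.exp (β * hamiltonian n g 1 - max (freeEnergy n β g) a)) := by
    intro a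
    exact (Real.continuous_exp.comp ((continuous_const.mul (continuous_hamiltonian 1)).sub
      ((continuous_freeEnergy n β).max continuous_const))).measurable.ennreal_ofReal
  have key := LogCc.pl_gauss hs ht hst
    (fun g : Pair n → ℝ => ENNReal.ofReal
      (Real.exp (β * hamiltonian n g 1 - max (freeEnergy n β g) a)))
    (fun g : Pair n → ℝ => ENNReal.ofReal
      (Real.exp (β * hamiltonian n g 1 - max (freeEnergy n β g) b)))
    (fun g : Pair n → ℝ => ENNReal.ofReal
      (Real.exp (β * hamiltonian n g 1 - max (freeEnergy n β g) (s * a + t * b))))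
    (hm _) (hm _) (hm _) (by
      intro x y
      rw [ENNReal.ofReal_rpow_of_pos (Real.exp_pos _), ENNReal.ofReal_rpow_of_pos (Real.exp_pos _),
        ← Real.exp_mul, ← Real.exp_mul, ← ENNReal.ofReal_mul (Real.exp_pos _).le, ← Real.exp_add]
      refine ENNReal.ofReal_le_ofReal (Real.exp_le_exp.2 ?_)
      rw [hamiltonian_comb]
      have h1 := freeEnergy_comb (β := β) hs ht hst x y
      have h2 : max (freeEnergy n β (s • x + t • y)) (s * a + t * b) ≤
          s * max (freeEnergy n β x) a + t * max (freeEnergy n β y) b := by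
        refine max_le (h1.trans ?_) ?_
        · exact add_le_add (mul_le_mul_of_nonneg_left (le_max_left _ _) hs.le)
            (mul_le_mul_of_nonneg_left (le_max_left _ _) ht.le)
        · exact add_le_add (mul_le_mul_of_nonneg_left (le_max_right _ _) hs.le)
            (mul_le_mul_of_nonneg_left (le_max_right _ _) ht.le)
      nlinarith [h2])
  rw [TL_gauge, TL_gauge, TL_gauge, ENNReal.mul_rpow_of_nonneg _ _ hs.le,
    ENNReal.mul_rpow_of_nonneg _ _ ht.le]
  have h2n : ((2 : ℝ≥0∞) ^ n) ^ s * ((2 : ℝ≥0∞) ^ n) ^ t = 2 ^ n := by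
    rw [← ENNReal.rpow_add _ _ (by positivity) (by finiteness), hst, ENNReal.rpow_one]
  calc _ = ((2 : ℝ≥0∞) ^ n) ^ s * ((2 : ℝ≥0∞) ^ n) ^ t *
      ((∫⁻ g, ENNReal.ofReal (Real.exp (β * hamiltonian n g 1 - max (freeEnergy n β g) a))
        ∂(disorder n)) ^ s * (∫⁻ g, ENNReal.ofReal
        (Real.exp (β * hamiltonian n g 1 - max (freeEnergy n β g) b)) ∂(disorder n)) ^ t) := by
        ring
    _ ≤ _ := by
        rw [h2n]
        exact mul_le_mul_right key _

/-- `T` is log-concave (real form). -/
theorem T_pow {s t : ℝ} (hs : 0 < s) (ht : 0 < t) (hst : s + t = 1) (a b : ℝ) :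
    T n β a ^ s * T n β b ^ t ≤ T n β (s * a + t * b) := by
  have h := TL_pow n β hs ht hst a b
  rw [TL_eq, TL_eq, TL_eq, ENNReal.ofReal_rpow_of_pos (T_pos n β a),
    ENNReal.ofReal_rpow_of_pos (T_pos n β b),
    ← ENNReal.ofReal_mul (Real.rpow_nonneg (T_pos n β a).le s),
    ENNReal.ofReal_le_ofReal_iff (T_pos n β _).le] at h
  exact h

/-- `T` is midpoint log-concave. -/
theorem T_mid (a b : ℝ) : T n β a * T n β b ≤ T n β ((a + b) / 2) ^ 2 := by
  have h := T_pow n β (s := 1 / 2) (t := 1 / 2) (by norm_num) (by norm_num) (by norm_num) a b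
  have e : (1 / 2 : ℝ) * a + 1 / 2 * b = (a + b) / 2 := by ring
  rw [e] at h
  have ha := T_pos n β a
  have hb := T_pos n β b
  have h1 : (T n β a ^ (1 / 2 : ℝ) * T n β b ^ (1 / 2 : ℝ)) ^ 2 ≤ T n β ((a + b) / 2) ^ 2 :=
    pow_le_pow_left₀ (by positivity) h 2
  rw [mul_pow, ← Real.rpow_natCast, ← Real.rpow_natCast, ← Real.rpow_mul ha.le,
    ← Real.rpow_mul hb.le] at h1
  norm_num at h1
  exact h1

/-- `log T` is a concave function. -/
theorem T_logConcave : ConcaveOn ℝ univ fun a => Real.log (T n β a) := by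
  refine ⟨convex_univ, fun a _ b _ s t hs ht hst => ?_⟩
  rcases hs.eq_or_lt with rfl | hs
  · have : t = 1 := by linarith
    subst this
    simp
  rcases ht.eq_or_lt with rfl | ht
  · have : s = 1 := by linarith
    subst this
    simp
  have h := Real.log_le_log (by have := T_pos n β a; have := T_pos n β b; positivity)
    (T_pow n β hs ht hst a b)
  rw [Real.log_mul (Real.rpow_pos_of_pos (T_pos n β a) s).ne'
    (Real.rpow_pos_of_pos (T_pos n β b) t).ne', Real.log_rpow (T_pos n β a),
    Real.log_rpow (T_pos n β b)] at h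
  simpa [smul_eq_mul] using h

/-- `P(F ≥ a) ≤ T(a)`. -/
theorem T_ge (a : ℝ) : (disorder n).real {g | a ≤ freeEnergy n β g} ≤ T n β a := by
  have hm : MeasurableSet {g : Pair n → ℝ | a ≤ freeEnergy n β g} :=
    measurableSet_le measurable_const (continuous_freeEnergy n β).measurable
  have h : (disorder n).real {g | a ≤ freeEnergy n β g} =
      ∫ g, {g : Pair n → ℝ | a ≤ freeEnergy n β g}.indicator 1 g ∂(disorder n) := by
    rw [integral_indicator_one hm]
  rw [h]
  unfold T
  refine integral_mono ((integrable_const (1 : ℝ)).indicator hm) (integrable_min n β a)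
    fun g => ?_
  by_cases hg : g ∈ {g : Pair n → ℝ | a ≤ freeEnergy n β g}
  · simp only [indicator_of_mem hg, Pi.one_apply]
    have h1 : a ≤ freeEnergy n β g := hg
    exact le_min le_rfl (Real.one_le_exp (by linarith))
  · simp only [indicator_of_notMem hg]
    exact (min_exp_pos _).le

/-- `T(a) ≤ P(F ≥ a - u) + e^{-u}`. -/
theorem T_le (a u : ℝ) :
    T n β a ≤ (disorder n).real {g | a - u ≤ freeEnergy n β g} + Real.exp (-u) := by
  have hm : MeasurableSet {g : Pair n → ℝ | a - u ≤ freeEnergy n β g} :=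
    measurableSet_le measurable_const (continuous_freeEnergy n β).measurable
  have h : (disorder n).real {g | a - u ≤ freeEnergy n β g} + Real.exp (-u) =
      ∫ g, ({g : Pair n → ℝ | a - u ≤ freeEnergy n β g}.indicator 1 g + Real.exp (-u))
        ∂(disorder n) := by
    have hi : Integrable ({g : Pair n → ℝ | a - u ≤ freeEnergy n β g}.indicator
        (1 : (Pair n → ℝ) → ℝ)) (disorder n) := (integrable_const (1 : ℝ)).indicator hm
    rw [integral_add hi (integrable_const _), integral_indicator_one hm]
    simp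
  rw [h]
  unfold T
  refine integral_mono (integrable_min n β a)
    (((integrable_const (1 : ℝ)).indicator hm).add (integrable_const _)) fun g => ?_
  by_cases hg : g ∈ {g : Pair n → ℝ | a - u ≤ freeEnergy n β g}
  · simp only [indicator_of_mem hg, Pi.one_apply]
    have h1 := Real.exp_pos (-u)
    exact (min_le_left _ _).trans (by linarith)
  · simp only [indicator_of_notMem hg, zero_add]
    have h1 : freeEnergy n β g < a - u := not_le.1 hg
    exact (min_le_right _ _).trans (Real.exp_le_exp.2 (by linarith))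

end Vale.Agent.P146.H641
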