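import Mathlib

/-!
# Moments pass to weak limits under a uniform bound of the fourth moment
-/

open MeasureTheory Filter Topology
open scoped BoundedContinuousFunction ENNReal

namespace Vale.Agent.P146.H641

/-- Under a uniform bound of the fourth moments, mean zero and variance one pass to the weak
limit. -/
theorem moments_limit {μs : ℕ → ProbabilityMeasure ℝ} {μ : ProbabilityMeasure ℝ}
    (h : Tendsto μs atTop (𝓝 μ)) (h1 : ∀ k, ∫ x, x ∂(μs k : Measure ℝ) = 0)
    (h2 : ∀ k, ∫ x, x ^ 2 ∂(μs k : Measure ℝ) = 1) {K : ℝ}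
    (hi : ∀ k, Integrable (fun x : ℝ => x ^ 4) (μs k : Measure ℝ))
    (hK : ∀ k, ∫ x, x ^ 4 ∂(μs k : Measure ℝ) ≤ K) :
    Integrable (fun x : ℝ => x ^ 2) (μ : Measure ℝ) ∧
      ∫ x, x ∂(μ : Measure ℝ) = 0 ∧ ∫ x, x ^ 2 ∂(μ : Measure ℝ) = 1 := by
  have hlim := (ProbabilityMeasure.tendsto_iff_forall_integral_tendsto).1 h
  have hK0 : 0 ≤ K := (integral_nonneg fun x => by positivity).trans (hK 0)
  -- integrability of the lower moments
  have hi2 : ∀ k, Integrable (fun x : ℝ => x ^ 2) (μs k : Measure ℝ) := by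
    intro k
    refine ((integrable_const (1 : ℝ)).add (hi k)).mono' (by fun_prop)
      (Eventually.of_forall fun x => ?_)
    rw [Real.norm_eq_abs, abs_of_nonneg (by positivity)]
    simp only [Pi.add_apply]
    nlinarith [sq_nonneg (x ^ 2 - 1 / 2)]
  have hi1 : ∀ k, Integrable (fun x : ℝ => x) (μs k : Measure ℝ) := by
    intro k
    refine ((integrable_const (1 : ℝ)).add (hi k)).mono' (by fun_prop)
      (Eventually.of_forall fun x => ?_)
    rw [Real.norm_eq_abs]
    simp only [Pi.add_apply]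
    rw [abs_le]
    constructor <;> nlinarith [sq_nonneg (x ^ 2 - 1), sq_nonneg (x - 1), sq_nonneg (x + 1)]
  -- the truncations
  have hcφ : ∀ R : ℝ, Continuous fun x : ℝ => min (x ^ 2) (R ^ 2) := fun R => by fun_prop
  have hbφ : ∀ R x : ℝ, ‖min (x ^ 2) (R ^ 2)‖ ≤ R ^ 2 := by
    intro R x
    rw [Real.norm_eq_abs, abs_of_nonneg (le_min (sq_nonneg _) (sq_nonneg _))]
    exact min_le_right _ _
  have hcψ : ∀ R : ℝ, Continuous fun x : ℝ => max (-R) (min x R) := fun R => by fun_prop
  have hbψ : ∀ R x : ℝ, 0 ≤ R → ‖max (-R) (min x R)‖ ≤ R := by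
    intro R x hR
    rw [Real.norm_eq_abs, abs_le]
    exact ⟨le_max_left _ _, max_le (by linarith) (min_le_right _ _)⟩
  have hiφ : ∀ (R : ℝ) (ν : ProbabilityMeasure ℝ),
      Integrable (fun x : ℝ => min (x ^ 2) (R ^ 2)) (ν : Measure ℝ) := fun R ν =>
    Integrable.of_bound (hcφ R).aestronglyMeasurable (R ^ 2)
      (Eventually.of_forall fun x => hbφ R x)
  have hiψ : ∀ (R : ℝ) (ν : ProbabilityMeasure ℝ), 0 ≤ R →
      Integrable (fun x : ℝ => max (-R) (min x R)) (ν : Measure ℝ) := fun R ν hR =>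
    Integrable.of_bound (hcψ R).aestronglyMeasurable R
      (Eventually.of_forall fun x => hbψ R x hR)
  have hlφ : ∀ R : ℝ, Tendsto (fun k => ∫ x, min (x ^ 2) (R ^ 2) ∂(μs k : Measure ℝ)) atTop
      (𝓝 (∫ x, min (x ^ 2) (R ^ 2) ∂(μ : Measure ℝ))) := fun R =>
    hlim (BoundedContinuousFunction.ofNormedAddCommGroup _ (hcφ R) (R ^ 2) (hbφ R))
  have hlψ : ∀ R : ℝ, 0 ≤ R → Tendsto (fun k => ∫ x, max (-R) (min x R) ∂(μs k : Measure ℝ))
      atTop (𝓝 (∫ x, max (-R) (min x R) ∂(μ : Measure ℝ))) := fun R hR =>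
    hlim (BoundedContinuousFunction.ofNormedAddCommGroup _ (hcψ R) R fun x => hbψ R x hR)
  -- bounds along the sequence
  have hbd : ∀ R : ℝ, 1 ≤ R → ∀ k, 1 - K / R ^ 2 ≤ ∫ x, min (x ^ 2) (R ^ 2) ∂(μs k : Measure ℝ) ∧
      ∫ x, min (x ^ 2) (R ^ 2) ∂(μs k : Measure ℝ) ≤ 1 := by
    intro R hR k
    have hR0 : 0 < R := by linarith
    constructor
    · have e : ∫ x, (x ^ 2 - x ^ 4 / R ^ 2) ∂(μs k : Measure ℝ) ≤
          ∫ x, min (x ^ 2) (R ^ 2) ∂(μs k : Measure ℝ) := by
        refine integral_mono ((hi2 k).sub ((hi k).div_const _)) (hiφ R _) fun x => ?_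
        simp only
        refine le_min (by have : 0 ≤ x ^ 4 / R ^ 2 := by positivity
                          linarith) ?_
        have h3 : x ^ 4 / R ^ 2 = (x ^ 2) ^ 2 / R ^ 2 := by ring
        rw [h3, sub_le_iff_le_add, ← sub_le_iff_le_add', le_div_iff₀ (by positivity)]
        nlinarith [sq_nonneg (x ^ 2 - R ^ 2), sq_nonneg (x ^ 2)]
      rw [integral_sub (hi2 k) ((hi k).div_const _), h2 k, integral_div] at e
      have h3 : (∫ x, x ^ 4 ∂(μs k : Measure ℝ)) / R ^ 2 ≤ K / R ^ 2 := by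
        gcongr
        exact hK k
      linarith
    · rw [← h2 k]
      exact integral_mono (hiφ R _) (hi2 k) fun x => min_le_left _ _
  have hbd' : ∀ R : ℝ, 1 ≤ R → ∀ k, |∫ x, max (-R) (min x R) ∂(μs k : Measure ℝ)| ≤ K / R := by
    intro R hR k
    have hR0 : 0 < R := by linarith
    have e1 : ∫ x, max (-R) (min x R) ∂(μs k : Measure ℝ) =
        ∫ x, (max (-R) (min x R) - x) ∂(μs k : Measure ℝ) := by
      rw [integral_sub (hiψ R _ hR0.le) (hi1 k), h1 k, sub_zero]
    rw [e1]
    refine (abs_integral_le_integral_abs).trans ?_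
    have e2 : ∫ x, |max (-R) (min x R) - x| ∂(μs k : Measure ℝ) ≤
        ∫ x, x ^ 4 / R ∂(μs k : Measure ℝ) := by
      refine integral_mono ((hiψ R _ hR0.le).sub (hi1 k)).abs ((hi k).div_const _) fun x => ?_
      simp only
      rw [le_div_iff₀ hR0]
      rcases le_total |x| R with hx | hx
      · have h3 := abs_le.1 hx
        rw [min_eq_left h3.2, max_eq_right h3.1, sub_self, abs_zero, zero_mul]
        positivity
      · have h4 : |max (-R) (min x R) - x| ≤ |x| := by
          rcases le_total 0 x with h0 | h0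
          · rw [abs_of_nonneg h0] at hx ⊢
            rw [min_eq_right hx, max_eq_right (by linarith), abs_le]
            constructor <;> linarith
          · rw [abs_of_nonpos h0] at hx ⊢
            rw [min_eq_left (by linarith), max_eq_left (by linarith), abs_le]
            constructor <;> linarith
        have h5 : |x| * R ≤ |x| * |x| := mul_le_mul_of_nonneg_left hx (abs_nonneg _)
        have h6 : |x| * |x| = x ^ 2 := by rw [← sq, sq_abs]
        have h7 : 1 ≤ x ^ 2 := by
          rw [← h6]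
          nlinarith [abs_nonneg x]
        calc |max (-R) (min x R) - x| * R ≤ |x| * R := mul_le_mul_of_nonneg_right h4 hR0.le
          _ ≤ x ^ 2 := by rw [← h6]; exact h5
          _ ≤ x ^ 4 := by nlinarith
    rw [integral_div] at e2
    refine e2.trans ?_
    gcongr
    exact hK k
  -- bounds for the limit
  have hmu : ∀ R : ℝ, 1 ≤ R → 1 - K / R ^ 2 ≤ ∫ x, min (x ^ 2) (R ^ 2) ∂(μ : Measure ℝ) ∧
      ∫ x, min (x ^ 2) (R ^ 2) ∂(μ : Measure ℝ) ≤ 1 := fun R hR =>
    ⟨ge_of_tendsto' (hlφ R) fun k => (hbd R hR k).1,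
      le_of_tendsto' (hlφ R) fun k => (hbd R hR k).2⟩
  have hmu' : ∀ R : ℝ, 1 ≤ R → |∫ x, max (-R) (min x R) ∂(μ : Measure ℝ)| ≤ K / R := fun R hR =>
    le_of_tendsto' (hlψ R (by linarith)).abs fun k => hbd' R hR k
  -- the limit is square integrable
  have hptφ : ∀ x : ℝ, Tendsto (fun N : ℕ => min (x ^ 2) (((N : ℝ) + 1) ^ 2)) atTop
      (𝓝 (x ^ 2)) := by
    intro x
    refine tendsto_const_nhds.congr' ?_
    obtain ⟨N0, hN0⟩ := exists_nat_gt |x|
    filter_upwards [eventually_ge_atTop N0] with N hN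
    have h3 : |x| ≤ (N : ℝ) + 1 := by
      have : (N0 : ℝ) ≤ N := by exact_mod_cast hN
      linarith
    have h4 : x ^ 2 ≤ ((N : ℝ) + 1) ^ 2 := by
      rw [← sq_abs x]
      exact pow_le_pow_left₀ (abs_nonneg _) h3 2
    exact (min_eq_left h4).symm
  have hint : Integrable (fun x : ℝ => x ^ 2) (μ : Measure ℝ) := by
    refine ⟨by fun_prop, ?_⟩
    rw [hasFiniteIntegral_iff_ofReal (Eventually.of_forall fun x => sq_nonneg x)]
    have hm : Tendsto (fun N : ℕ => ∫⁻ x, ENNReal.ofReal (min (x ^ 2) (((N : ℝ) + 1) ^ 2))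
        ∂(μ : Measure ℝ)) atTop (𝓝 (∫⁻ x, ENNReal.ofReal (x ^ 2) ∂(μ : Measure ℝ))) := by
      refine lintegral_tendsto_of_tendsto_of_monotone (fun N => by fun_prop)
        (Eventually.of_forall fun x => ?_) (Eventually.of_forall fun x => ?_)
      · intro a b hab
        refine ENNReal.ofReal_le_ofReal (min_le_min_left _ ?_)
        have : (a : ℝ) ≤ b := by exact_mod_cast hab
        have h0 : (0 : ℝ) ≤ a := Nat.cast_nonneg _
        nlinarith
      · exact (ENNReal.continuous_ofReal.tendsto _).comp (hptφ x)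
    have hle : ∫⁻ x, ENNReal.ofReal (x ^ 2) ∂(μ : Measure ℝ) ≤ ENNReal.ofReal 1 := by
      refine le_of_tendsto' hm fun N => ?_
      rw [← ofReal_integral_eq_lintegral_ofReal (hiφ _ μ)
        (Eventually.of_forall fun x => le_min (sq_nonneg _) (sq_nonneg _))]
      exact ENNReal.ofReal_le_ofReal (hmu _ (by have : (0 : ℝ) ≤ N := Nat.cast_nonneg _
                                                linarith)).2
    exact hle.trans_lt ENNReal.ofReal_lt_top
  have hint1 : Integrable (fun x : ℝ => |x|) (μ : Measure ℝ) := by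
    refine ((integrable_const (1 : ℝ)).add hint).mono' (by fun_prop)
      (Eventually.of_forall fun x => ?_)
    rw [Real.norm_eq_abs, abs_abs]
    simp only [Pi.add_apply]
    nlinarith [sq_abs x, sq_nonneg (|x| - 1)]
  have hNR : ∀ N : ℕ, (1 : ℝ) ≤ (N : ℝ) + 1 := fun N => by
    have : (0 : ℝ) ≤ N := Nat.cast_nonneg _
    linarith
  have hinv : Tendsto (fun N : ℕ => K / ((N : ℝ) + 1)) atTop (𝓝 0) :=
    tendsto_const_nhds.div_atTop (tendsto_atTop_add_const_right _ _ tendsto_natCast_atTop_atTop)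
  have hinv2 : Tendsto (fun N : ℕ => K / ((N : ℝ) + 1) ^ 2) atTop (𝓝 0) :=
    tendsto_const_nhds.div_atTop ((tendsto_pow_atTop (by norm_num)).comp
      (tendsto_atTop_add_const_right _ _ tendsto_natCast_atTop_atTop))
  refine ⟨hint, ?_, ?_⟩
  · have hd : Tendsto (fun N : ℕ => ∫ x, max (-((N : ℝ) + 1)) (min x ((N : ℝ) + 1))
        ∂(μ : Measure ℝ)) atTop (𝓝 (∫ x, x ∂(μ : Measure ℝ))) := by
      refine tendsto_integral_of_dominated_convergence (fun x => |x|)
        (fun N => (hcψ _).aestronglyMeasurable) hint1 (fun N => Eventually.of_forall fun x => ?_)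
        (Eventually.of_forall fun x => ?_)
      · have h3 := hNR N
        rw [Real.norm_eq_abs, abs_le]
        constructor
        · refine le_max_of_le_right (le_min (neg_abs_le x) ?_)
          linarith [abs_nonneg x]
        · exact max_le (by linarith [abs_nonneg x]) ((min_le_left _ _).trans (le_abs_self x))
      · refine tendsto_const_nhds.congr' ?_
        obtain ⟨N0, hN0⟩ := exists_nat_gt |x|
        filter_upwards [eventually_ge_atTop N0] with N hN
        have h3 : |x| ≤ (N : ℝ) + 1 := by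
          have : (N0 : ℝ) ≤ N := by exact_mod_cast hN
          linarith
        have h4 := abs_le.1 h3
        rw [min_eq_left h4.2, max_eq_right h4.1]
    have h0 : Tendsto (fun N : ℕ => ∫ x, max (-((N : ℝ) + 1)) (min x ((N : ℝ) + 1))
        ∂(μ : Measure ℝ)) atTop (𝓝 0) :=
      squeeze_zero_norm (fun N => by rw [Real.norm_eq_abs]; exact hmu' _ (hNR N)) hinv
    exact tendsto_nhds_unique hd h0
  · have hd : Tendsto (fun N : ℕ => ∫ x, min (x ^ 2) (((N : ℝ) + 1) ^ 2) ∂(μ : Measure ℝ))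
        atTop (𝓝 (∫ x, x ^ 2 ∂(μ : Measure ℝ))) := by
      refine tendsto_integral_of_dominated_convergence (fun x => x ^ 2)
        (fun N => (hcφ _).aestronglyMeasurable) hint (fun N => Eventually.of_forall fun x => ?_)
        (Eventually.of_forall fun x => hptφ x)
      rw [Real.norm_eq_abs, abs_of_nonneg (le_min (sq_nonneg _) (sq_nonneg _))]
      exact min_le_left _ _
    have h0 : Tendsto (fun N : ℕ => ∫ x, min (x ^ 2) (((N : ℝ) + 1) ^ 2) ∂(μ : Measure ℝ))
        atTop (𝓝 1) := by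
      refine tendsto_of_tendsto_of_tendsto_of_le_of_le (g := fun N : ℕ =>
        1 - K / ((N : ℝ) + 1) ^ 2) (h := fun _ => 1) ?_ tendsto_const_nhds
        (fun N => (hmu _ (hNR N)).1) fun N => (hmu _ (hNR N)).2
      simpa using tendsto_const_nhds.sub hinv2 (a := (1 : ℝ))
    exact tendsto_nhds_unique hd h0

end Vale.Agent.P146.H641
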