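import Vale.Agent.P146.H713.Ftc
import Vale.Agent.P146.H767.DDs
import Vale.Agent.P146.H645.CSys

/-!
# P146: the law of one window in the letters of R1, and the rates there

The law with the parameters `θ = -1`, `t0 = 0`, `t1 = 1 - σ` is the law `(0 | x on [1 - σ, 1])`
(`Et_win`). The mean squared gradient there is `Qin` (`Qt_win`), bounded by the functional of one
window at the doubled exponent (`Qin_le`), and there are good times for the rates (`rates`).
-/

open MeasureTheory ProbabilityTheory Filter Topology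

namespace Vale.Agent.P146.H641

open Vale.Agent.P157.Lv Vale.Agent.P146.H425 Vale.Agent.P146.H332 Vale.Agent.P146.H767
open Vale.Agent.P146.R1

set_option linter.unusedSectionVars false

section gen

variable {κ : Type} [Fintype κ] {F : (κ → ℝ) → ℝ} {D : κ → (κ → ℝ) → ℝ} {B L x σ t : ℝ}
  {ψ : (κ → ℝ) → ℝ}

/-- the mean of the constants -/
lemma Ein_one (h : C11 F D B L) (hx : 0 < x) (h0 : 1 - σ ≤ t) (h1 : t ≤ 1) :
    Ein x σ t F (fun _ => 1) = 1 := by
  unfold Ein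
  have e : ∀ z : κ → ℝ, pin x (1 - σ) t F (fun _ => 1) z * Real.exp (-x * uu x (1 - σ) F z) =
      1 := by
    intro z
    have h2 : pin x (1 - σ) t F (fun _ => 1) z = Real.exp (x * uu x (1 - σ) F z) := by
      rw [← uu_step h hx h0 h1 z]
      unfold pin
      simp only [mul_one]
    rw [h2, ← Real.exp_add]
    have : x * uu x (1 - σ) F z + -x * uu x (1 - σ) F z = 0 := by ring
    rw [this, Real.exp_zero]
  simp only [e]
  simp

/-- the law of one window, not normalized -/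
lemma Eu_win (h : C11 F D B L) (hx : 0 < x) (hψ : EG ψ) (σ t : ℝ) :
    Eu x (-1) 0 (1 - σ) t F (fun _ _ z2 => ψ z2) =
      Real.exp (x * uu x 0 F 0) * Ein x σ t F ψ := by
  rw [Eu_iter h hx (E3.of2 hψ)]
  simp only [Real.sqrt_zero, zero_smul, zero_add, sub_zero]
  rw [integral_const, probReal_univ, one_smul]
  unfold Ein pin
  rw [← integral_const_mul]
  refine integral_congr_ae (Eventually.of_forall fun y1 => ?_)
  simp only
  rw [← integral_mul_const, ← integral_const_mul]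
  refine integral_congr_ae (Eventually.of_forall fun y2 => ?_)
  simp only
  unfold dn xi
  have e1 : x * uu x t F (√(1 - σ) • y1 + √(t - (1 - σ)) • y2) +
      -1 * (x * (uu x (1 - σ) F (√(1 - σ) • y1) - uu x 0 F 0)) =
      x * uu x 0 F 0 + (x * uu x t F (√(1 - σ) • y1 + √(t - (1 - σ)) • y2) +
        -x * uu x (1 - σ) F (√(1 - σ) • y1)) := by ring
  rw [e1, Real.exp_add, Real.exp_add]
  ring

/-- **The law of one window in the letters of R1.** -/
theorem Et_win (h : C11 F D B L) (hx : 0 < x) (hψ : EG ψ) (h0 : 1 - σ ≤ t) (h1 : t ≤ 1) :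
    R1.Et x (-1) 0 (1 - σ) t F (fun _ _ z2 => ψ z2) = Ein x σ t F ψ := by
  unfold R1.Et
  rw [Eu_win h hx hψ, Eu_win h hx (EG.const 1), Ein_one h hx h0 h1, mul_one]
  have := Real.exp_pos (x * uu x 0 F 0)
  field_simp

theorem Qt_win (h : C11 F D B L) (hx : 0 < x) (h0 : 1 - σ ≤ t) (h1 : t ≤ 1) :
    Qt x (-1) 0 (1 - σ) t F D = Qin x σ t F D :=
  Et_win h hx (eg_sqq h hx t) h0 h1

/-- **The mean squared gradient from the functional at the doubled exponent.** -/
theorem Qin_le (h : C11 F D B L) (hc : Cv F) (hx : 0 < x) (h0 : 1 - σ ≤ t) (h1 : t ≤ 1)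
    (hσ : 0 ≤ σ) (hσ1 : σ ≤ 1) :
    x / 2 * ((1 - t) * Qin x σ t F D) ≤ DD (2 * x) σ F - DD x σ F := by
  have h2 := DD_tan (D := D) h hc hx (y := 2 * x) (by positivity) hσ hσ1
  have h3 : (1 - t) * Qin x σ t F D ≤ ∫ r in (1 - σ)..1, Qin x σ r F D := by
    have i1 := Qin_int (D := D) h hx (s := σ) (a := 1 - σ) (b := t) le_rfl h0 h1
    have i2 := Qin_int (D := D) h hx (s := σ) (a := t) (b := 1) h0 h1 le_rfl
    rw [← intervalIntegral.integral_add_adjacent_intervals i1 i2]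
    have k1 : 0 ≤ ∫ r in (1 - σ)..t, Qin x σ r F D :=
      intervalIntegral.integral_nonneg h0 fun r _ => Qin_nonneg hx
    have k2 := intervalIntegral.integral_mono_on (a := t) (b := 1) h1 (by simp) i2
      (f := fun _ => Qin x σ t F D) fun r hr => Qin_mono h hx h0 hr.1 hr.2
    rw [intervalIntegral.integral_const, smul_eq_mul] at k2
    linarith
  have e : (2 * x - x) / 2 = x / 2 := by ring
  rw [e] at h2
  have := mul_le_mul_of_nonneg_left h3 (by positivity : 0 ≤ x / 2)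
  linarith

/-- **The value at the base time from the functional: some window of length in `[λσ, σ]`.** -/
theorem Q0_ge (h : C11 F D B L) (hx : 0 < x) {a b : ℝ} (ha : 0 ≤ a) (hab : a ≤ b) (hb : b ≤ 1) :
    ∃ s ∈ Set.Icc a b, DD x b F - DD x a F = x / 2 * ((b - a) * Q0 x s F D) := by
  have h1 := DD_int_s (D := D) h hx ha hab hb
  obtain ⟨C', hC', h2⟩ := Q0_cont (D := D) h hx
  have hQc : ContinuousOn (fun σ => x / 2 * Q0 x σ F D) (Set.Icc a b) := by
    refine ContinuousOn.mul continuousOn_const ?_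
    intro c hc
    rw [ContinuousWithinAt, tendsto_iff_dist_tendsto_zero]
    have hlim : Tendsto (fun r : ℝ => C' * √|r - c|) (𝓝[Set.Icc a b] c) (𝓝 0) := by
      have : Tendsto (fun r : ℝ => C' * √|r - c|) (𝓝 c) (𝓝 (C' * √|c - c|)) := by
        have hcont : Continuous fun r : ℝ => C' * √|r - c| := by fun_prop
        exact hcont.tendsto c
      rw [sub_self, abs_zero, Real.sqrt_zero, mul_zero] at this
      exact this.mono_left nhdsWithin_le_nhds
    refine squeeze_zero' (Eventually.of_forall fun _ => dist_nonneg) ?_ hlim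
    filter_upwards [self_mem_nhdsWithin] with r hr
    rw [Real.dist_eq]
    rcases le_total c r with hle | hle
    · have := h2 c r (ha.trans hc.1) hle (hr.2.trans hb)
      rwa [abs_of_nonneg (by linarith : 0 ≤ r - c)]
    · have := h2 r c (ha.trans hr.1) hle (hc.2.trans hb)
      rw [abs_sub_comm, abs_sub_comm r c]
      rwa [abs_of_nonneg (by linarith : 0 ≤ c - r)]
  rw [← Set.uIcc_of_le hab] at hQc
  obtain ⟨s, hs, hse⟩ := exists_eq_const_mul_intervalIntegral_of_nonneg (μ := volume)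
    (g := fun _ => (1 : ℝ)) hQc (by simp) fun _ _ => zero_le_one
  rw [Set.uIcc_of_le hab] at hs
  refine ⟨s, hs, ?_⟩
  simp only [mul_one, intervalIntegral.integral_const, smul_eq_mul] at hse
  rw [h1, hse]
  ring

/-- **The mean value theorem for the rate.** -/
theorem good_time [DecidableEq κ] {H T : κ → κ → (κ → ℝ) → ℝ} {M θ t0 t1 a b : ℝ}
    (hS : Sm F D B L H T M) (hx : 0 < x) (ha : t1 ≤ a) (hab : a < b) (hb : b ≤ 1) :
    ∃ s ∈ Set.Ioo a b, Ht x θ t0 t1 s F D H =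
      (Qt x θ t0 t1 b F D - Qt x θ t0 t1 a F D) / (b - a) :=
  exists_hasDerivAt_eq_slope (fun s => Qt x θ t0 t1 s F D) (fun s => Ht x θ t0 t1 s F D H) hab
    ((Qt_cont hS hx θ t0 (by linarith)).mono (Set.Icc_subset_Icc ha hb)) fun s hs =>
      Qt_deriv hS hx θ t0 ⟨ha.trans_lt hs.1, hs.2.trans_le hb⟩

/-- **Good times in the window.** -/
theorem good_win [DecidableEq κ] {H T : κ → κ → (κ → ℝ) → ℝ} {M a b : ℝ}
    (hS : Sm F D B L H T M) (hc : Cv F) (hx : 0 < x) (hσ : 0 < σ) (hσ1 : σ ≤ 1)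
    (ha : 1 - σ ≤ a) (hab : a < b) (hb : b < 1) :
    ∃ s ∈ Set.Ioo a b, Ht x (-1) 0 (1 - σ) s F D H ≤
      2 / (x * (1 - b) * (b - a)) * DD (2 * x) σ F := by
  obtain ⟨s, hs, he⟩ := good_time (θ := -1) (t0 := 0) hS hx ha hab hb.le
  refine ⟨s, hs, ?_⟩
  rw [he]
  have h0 : 0 ≤ Qt x (-1) 0 (1 - σ) a F D := by
    rw [Qt_win hS.c11 hx ha (by linarith)]
    exact Qin_nonneg hx
  have h1 := Qin_le (D := D) hS.c11 hc hx (t := b) (by linarith) hb.le hσ.le hσ1
  rw [← Qt_win hS.c11 hx (by linarith) hb.le] at h1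
  have h2 := DD_nonneg hS.c11 hx hσ.le hσ1
  have hb1 : 0 < 1 - b := by linarith
  have hba : 0 < b - a := by linarith
  rw [div_le_iff₀ hba]
  have e : 2 / (x * (1 - b) * (b - a)) * DD (2 * x) σ F * (b - a) =
      2 / (x * (1 - b)) * DD (2 * x) σ F := by
    field_simp
  rw [e]
  have h3 : x / 2 * ((1 - b) * Qt x (-1) 0 (1 - σ) b F D) ≤ DD (2 * x) σ F := by linarith
  have h4 : Qt x (-1) 0 (1 - σ) b F D ≤ 2 / (x * (1 - b)) * DD (2 * x) σ F := by
    have h5 : Qt x (-1) 0 (1 - σ) b F D = 2 / (x * (1 - b)) *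
        (x / 2 * ((1 - b) * Qt x (-1) 0 (1 - σ) b F D)) := by
      field_simp
    rw [h5]
    exact mul_le_mul_of_nonneg_left h3 (by positivity)
  linarith

end gen

/-! ### the position system -/

section cs

variable {n : ℕ} {k x : ℝ} (S : R1S.CS n k x)

lemma eg_frDA (t : ℝ) : EG fun z : Pair n → ℝ => ∑ e, fr (S.DA t e z) := by
  unfold fr
  exact EG.sum _ fun e _ => EG.sum _ fun i _ => EG.sum _ fun j _ => (S.eg_DA t e i j).pow 2

/-- the rate in the letters of `CS` -/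
lemma Ht_DA {θ t0 t1 s B L M : ℝ} {HF TF : Pair n → Pair n → (Pair n → ℝ) → ℝ}
    (h : Sm S.F S.D B L HF TF M) : Ht x θ t0 t1 s S.F S.D HF =
    k ^ 2 / 2 * R1.Et x θ t0 t1 s S.F (fun _ _ z2 => ∑ e, fr (S.DA s e z2)) := by
  rw [← R1.Et_const_mul]
  unfold Ht
  simp only [S.hq_DA h]

/-- **Rates** at `θ = -1`, `t0 = 0`, `t1 = 1 - σ`: `En rt` in terms of `DD (2 x) σ`. -/
theorem rates {B L M σ : ℝ} {HF TF : Pair n → Pair n → (Pair n → ℝ) → ℝ}
    (hS : Sm S.F S.D B L HF TF M) (hσ : 0 < σ) (hσ1 : σ ≤ 1) :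
    ∃ s1 s2, 1 - 7 / 8 * σ < s1 ∧ s1 < 1 - 13 / 16 * σ ∧ 1 - 9 / 16 * σ < s2 ∧ s2 < 1 - σ / 2 ∧
      k ^ 2 / 2 * R1C.En ⟨x, -1, 0, 1 - σ, s1, s2⟩ S.F
        (fun w => ∑ e, fr (S.DA s1 e (R1C.P2 ⟨x, -1, 0, 1 - σ, s1, s2⟩ w))) ≤
          64 / (x * σ ^ 2) * DD (2 * x) σ S.F ∧
      k ^ 2 / 2 * R1C.En ⟨x, -1, 0, 1 - σ, s1, s2⟩ S.F
        (fun w => ∑ e, fr (S.DA s2 e (R1C.P3 ⟨x, -1, 0, 1 - σ, s1, s2⟩ w))) ≤
          64 / (x * σ ^ 2) * DD (2 * x) σ S.F := by
  have hx := S.x0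
  have h2 := DD_nonneg S.c11 (x := 2 * x) (by positivity) hσ.le hσ1
  obtain ⟨s1, hs1, hr1⟩ := good_win (a := 1 - 7 / 8 * σ) (b := 1 - 13 / 16 * σ) hS S.cv hx hσ hσ1
    (by linarith) (by linarith) (by linarith)
  obtain ⟨s2, hs2, hr2⟩ := good_win (a := 1 - 9 / 16 * σ) (b := 1 - σ / 2) hS S.cv hx hσ hσ1
    (by linarith) (by linarith) (by linarith)
  refine ⟨s1, s2, hs1.1, hs1.2, hs2.1, hs2.2, ?_, ?_⟩
  · rw [(R1C.En_eq ⟨x, -1, 0, 1 - σ, s1, s2⟩ S.F fun _ _ z2 _ => ∑ e, fr (S.DA s1 e z2)).trans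
      (Et4_123 S.c11 hx (E3.of2 (eg_frDA S s1)) (by simp only; linarith [hs1.2, hs2.1])
        (by simp only; linarith [hs2.2]))]
    rw [← Ht_DA S hS]
    refine hr1.trans (mul_le_mul_of_nonneg_right ?_ h2)
    rw [div_le_div_iff₀ (by have : (0:ℝ) < 1 - (1 - 13 / 16 * σ) := by linarith
                            have : (0:ℝ) < 1 - 13 / 16 * σ - (1 - 7 / 8 * σ) := by linarith
                            positivity) (by positivity)]
    nlinarith [mul_pos hx (pow_pos hσ 2)]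
  · rw [(R1C.En_eq ⟨x, -1, 0, 1 - σ, s1, s2⟩ S.F fun _ _ _ z3 => ∑ e, fr (S.DA s2 e z3)).trans
      (Et4_124 S.c11 hx (E3.of2 (eg_frDA S s2)) (by simp only; linarith [hs1.1])
        (by simp only; linarith [hs1.2, hs2.1]))]
    rw [← Ht_DA S hS]
    refine hr2.trans (mul_le_mul_of_nonneg_right ?_ h2)
    rw [div_le_div_iff₀ (by have : (0:ℝ) < 1 - (1 - σ / 2) := by linarith
                            have : (0:ℝ) < 1 - σ / 2 - (1 - 9 / 16 * σ) := by linarith
                            positivity) (by positivity)]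
    nlinarith [mul_pos hx (pow_pos hσ 2)]

/-- **The base point**: at the position `0` the matrix is the identity. -/
lemma A_zero (s : ℝ) (i j : Fin n) : S.A s 0 i j = if i = j then 1 else 0 := by
  split_ifs with h
  · rw [h, S.A_self]
  · have h1 := S.A_fl_row s h (0 : Pair n → ℝ)
    have h2 : R1C.fl j (0 : Pair n → ℝ) = 0 := by
      funext e
      simp [R1C.fl]
    rw [h2] at h1
    linarith

lemma fr_A_zero (s : ℝ) : fr (S.A s 0) = n := by
  unfold fr
  simp only [A_zero]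
  simp

/-- **`up0`** for `t0 = 0`: the size at the base is deterministic. -/
theorem up_zero {θ t1 s1 s2 M δ : ℝ} (hM : (n : ℝ) ≤ M) (hδ : 0 ≤ δ) :
    R1C.En ⟨x, θ, 0, t1, s1, s2⟩ S.F (fun w =>
      if M < fr (S.A 0 (R1C.P0 ⟨x, θ, 0, t1, s1, s2⟩ w)) then (1 : ℝ) else 0) ≤ δ := by
  have e : (fun w : K4 (Pair n) → ℝ =>
      if M < fr (S.A 0 (R1C.P0 ⟨x, θ, 0, t1, s1, s2⟩ w)) then (1 : ℝ) else 0) = fun _ => 0 := by
    funext w
    have h1 : R1C.P0 (κ := Pair n) ⟨x, θ, 0, t1, s1, s2⟩ w = 0 := by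
      unfold R1C.P0 p0
      simp
    rw [h1, fr_A_zero, if_neg (not_lt.2 hM)]
  rw [e]
  unfold R1C.En R1C.Ew
  simpa using hδ

end cs

end Vale.Agent.P146.H641
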