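import Vale.Agent.P146.H641.LogConc

/-!
# P146: exponential moments of the free energy at the scale of its standard deviation

`T(a) = E min(1, e^{F-a})` is log-concave, at least `8/9` at `a = EF - 3(σ+1)` and at most `1/6`
at `a = EF + 3(σ+1)`, where `σ` is the standard deviation of `F`.  So the upper tail of `F` is
exponential at the scale `σ + 1`, and `E e^{x(F-EF)} ≤ 7/2` for `0 ≤ x ≤ 1/(12(σ+1))`.
-/

open MeasureTheory ProbabilityTheory Set
open scoped ENNReal NNReal

namespace Vale.Agent.P146.H641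

open Vale.Agent.P146.H605 Vale.Agent.P146.H605.Gauge

variable (n : ℕ) (β : ℝ)

/-- The free energy is square integrable. -/
lemma memLp_freeEnergy : MemLp (freeEnergy n β) 2 (disorder n) := by
  have hH : ∀ (g : Pair n → ℝ) (σ : Fin n → ℤˣ),
      |hamiltonian n g σ| ≤ (1 / Real.sqrt n) * ∑ p : Pair n, |g p| := by
    intro g σ
    unfold hamiltonian
    rw [abs_mul, abs_of_nonneg (by positivity : (0 : ℝ) ≤ 1 / Real.sqrt n)]
    refine mul_le_mul_of_nonneg_left ?_ (by positivity)
    refine (Finset.abs_sum_le_sum_abs _ _).trans (Finset.sum_le_sum fun p _ => ?_)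
    rw [abs_mul, abs_mul]
    have h1 : ∀ u : ℤˣ, |((u : ℤ) : ℝ)| = 1 := by
      intro u
      rcases Int.units_eq_one_or u with h | h <;> simp [h]
    rw [h1, h1, mul_one, mul_one]
  have hF : ∀ g : Pair n → ℝ, |freeEnergy n β g| ≤
      n * Real.log 2 + ∑ p : Pair n, |β| * (1 / Real.sqrt n) * |g p| := by
    intro g
    set S := (1 / Real.sqrt n) * ∑ p : Pair n, |g p| with hS
    have hS2 : ∑ p : Pair n, |β| * (1 / Real.sqrt n) * |g p| = |β| * S := by
      rw [hS, ← Finset.mul_sum, mul_assoc]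
    rw [hS2]
    have hb : ∀ σ : Fin n → ℤˣ, |β * hamiltonian n g σ| ≤ |β| * S := by
      intro σ
      rw [abs_mul]
      exact mul_le_mul_of_nonneg_left (hH g σ) (abs_nonneg _)
    have hcard : ∑ _σ : Fin n → ℤˣ, (1 : ℝ) = 2 ^ n := by
      simp [Fintype.card_units_int]
    have h1 : partitionFn n β g ≤ 2 ^ n * Real.exp (|β| * S) := by
      rw [← hcard, Finset.sum_mul]
      refine Finset.sum_le_sum fun σ _ => ?_
      rw [one_mul]
      exact Real.exp_le_exp.2 ((le_abs_self _).trans (hb σ))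
    have h2 : 2 ^ n * Real.exp (-(|β| * S)) ≤ partitionFn n β g := by
      rw [← hcard, Finset.sum_mul]
      refine Finset.sum_le_sum fun σ _ => ?_
      rw [one_mul]
      exact Real.exp_le_exp.2 ((neg_le_neg (hb σ)).trans (neg_abs_le _))
    have hp := partitionFn_pos (n := n) β g
    have h3 := Real.log_le_log hp h1
    have h4 := Real.log_le_log (by positivity) h2
    rw [Real.log_mul (by positivity) (Real.exp_pos _).ne', Real.log_exp, Real.log_pow] at h3 h4
    have h5 : 0 ≤ (n : ℝ) * Real.log 2 := mul_nonneg (Nat.cast_nonneg _) (Real.log_nonneg (by norm_num))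
    rw [abs_le]
    unfold freeEnergy
    constructor <;> linarith
  have hmp : ∀ p : Pair n, MemLp (fun g : Pair n → ℝ => g p) 2 (disorder n) := by
    intro p
    have h := memLp_id_gaussianReal (μ := 0) (v := 1) 2
    have hmp : MeasurePreserving (fun g : Pair n → ℝ => g p) (disorder n) (gaussianReal 0 1) := by
      unfold disorder
      exact measurePreserving_eval _ p
    exact h.comp_measurePreserving hmp
  have hdom : MemLp (fun g : Pair n → ℝ => (n : ℝ) * Real.log 2 +
      ∑ p : Pair n, |β| * (1 / Real.sqrt n) * |g p|) 2 (disorder n) := by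
    have h0 : MemLp (fun _ : Pair n → ℝ => (n : ℝ) * Real.log 2) 2 (disorder n) :=
      memLp_const _
    have h1 : MemLp (fun g : Pair n → ℝ => ∑ p : Pair n, |β| * (1 / Real.sqrt n) * |g p|) 2
        (disorder n) :=
      memLp_finsetSum Finset.univ fun p _ => ((hmp p).abs).const_mul (|β| * (1 / Real.sqrt n))
    exact h0.add h1
  refine hdom.mono' (continuous_freeEnergy n β).aestronglyMeasurable
    (Filter.Eventually.of_forall fun g => ?_)
  rw [Real.norm_eq_abs]
  exact hF g

/-- The mean of the free energy. -/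
noncomputable def mean : ℝ := ∫ g, freeEnergy n β g ∂(disorder n)

/-- The standard deviation of the free energy plus one. -/
noncomputable def sd1 : ℝ := 1 + Real.sqrt (Var[freeEnergy n β; disorder n])

lemma sd1_pos : 0 < sd1 n β := by
  unfold sd1
  positivity

/-- Chebyshev at the scale `3 (σ + 1)`. -/
lemma cheb : (disorder n).real {g | 3 * sd1 n β ≤ |freeEnergy n β g - mean n β|} ≤ 1 / 9 := by
  have hs := sd1_pos n β
  have h1 := meas_ge_le_variance_div_sq (memLp_freeEnergy n β) (c := 3 * sd1 n β) (by positivity)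
  have h3 := ENNReal.toReal_mono ENNReal.ofReal_ne_top h1
  rw [ENNReal.toReal_ofReal (div_nonneg (variance_nonneg _ _) (sq_nonneg _))] at h3
  have h2 : Var[freeEnergy n β; disorder n] ≤ sd1 n β ^ 2 := by
    have h4 := Real.sq_sqrt (variance_nonneg (freeEnergy n β) (disorder n))
    have h5 := Real.sqrt_nonneg (Var[freeEnergy n β; disorder n])
    unfold sd1
    nlinarith
  refine le_trans h3 ?_
  rw [div_le_div_iff₀ (by positivity) (by norm_num)]
  nlinarith

lemma exp_neg_three : Real.exp (-3) ≤ 1 / 18 := by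
  have h1 : (18 : ℝ) ≤ Real.exp 3 := by
    have h2 := Real.exp_one_gt_d9
    have h3 : Real.exp 3 = Real.exp 1 ^ 3 := by
      rw [← Real.exp_nat_mul]
      norm_num
    rw [h3]
    have h4 : (2.7 : ℝ) ^ 3 ≤ Real.exp 1 ^ 3 := pow_le_pow_left₀ (by norm_num) (by linarith) 3
    nlinarith
  rw [Real.exp_neg, inv_eq_one_div]
  exact one_div_le_one_div_of_le (by norm_num) h1

/-- `T ≥ 8/9` at `EF - 3(σ+1)`. -/
lemma T_low : 8 / 9 ≤ T n β (mean n β - 3 * sd1 n β) := by
  refine le_trans ?_ (T_ge n β _)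
  have hm : MeasurableSet {g : Pair n → ℝ | mean n β - 3 * sd1 n β ≤ freeEnergy n β g} :=
    measurableSet_le measurable_const (continuous_freeEnergy n β).measurable
  have h1 := probReal_compl_eq_one_sub (μ := disorder n) hm
  have h2 : (disorder n).real {g : Pair n → ℝ | mean n β - 3 * sd1 n β ≤ freeEnergy n β g}ᶜ ≤
      1 / 9 := by
    refine (measureReal_mono ?_).trans (cheb n β)
    intro g hg
    have h3 : freeEnergy n β g < mean n β - 3 * sd1 n β := not_le.1 hg
    have h4 : 3 * sd1 n β ≤ |freeEnergy n β g - mean n β| := by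
      rw [abs_of_neg (by linarith [sd1_pos n β])]
      linarith
    exact h4
  linarith

/-- `T ≤ 1/6` at `EF + 6(σ+1)`. -/
lemma T_high : T n β (mean n β + 6 * sd1 n β) ≤ 1 / 6 := by
  have h0 : 1 ≤ sd1 n β := by
    unfold sd1
    linarith [Real.sqrt_nonneg (Var[freeEnergy n β; disorder n])]
  have h1 := T_le n β (mean n β + 3 * sd1 n β + 3) 3
  have h2 : (disorder n).real {g : Pair n → ℝ | mean n β + 3 * sd1 n β + 3 - 3 ≤
      freeEnergy n β g} ≤ 1 / 9 := by
    refine (measureReal_mono ?_).trans (cheb n β)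
    intro g hg
    have h3 : mean n β + 3 * sd1 n β + 3 - 3 ≤ freeEnergy n β g := hg
    have h4 : 3 * sd1 n β ≤ |freeEnergy n β g - mean n β| := by
      rw [abs_of_nonneg (by linarith)]
      linarith
    exact h4
  have h5 := T_anti n β (show mean n β + 3 * sd1 n β + 3 ≤ mean n β + 6 * sd1 n β by linarith)
  have h6 := exp_neg_three
  linarith

/-- The ratios of a log-concave sequence are nonincreasing. -/
lemma ratio_bound {t : ℕ → ℝ} (hp : ∀ k, 0 < t k) (hc : ∀ k, t k * t (k + 2) ≤ t (k + 1) ^ 2)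
    {r : ℝ} (hr : t 1 ≤ r * t 0) (k : ℕ) : t (k + 1) ≤ r * t k := by
  induction k with
  | zero => exact hr
  | succ k ih =>
    have h1 := hc k
    have h2 := hp k
    have h3 := hp (k + 1)
    have h4 : t k * t (k + 2) ≤ t k * (r * t (k + 1)) := by
      calc t k * t (k + 2) ≤ t (k + 1) * t (k + 1) := by rw [← sq]; exact h1
        _ ≤ (r * t k) * t (k + 1) := mul_le_mul_of_nonneg_right ih h3.le
        _ = t k * (r * t (k + 1)) := by ring
    exact le_of_mul_le_mul_left h4 h2

lemma geom_bound {t : ℕ → ℝ} (hp : ∀ k, 0 < t k) (hc : ∀ k, t k * t (k + 2) ≤ t (k + 1) ^ 2)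
    {r : ℝ} (hr0 : 0 ≤ r) (hr : t 1 ≤ r * t 0) (h0 : t 0 ≤ 1) (k : ℕ) : t k ≤ r ^ k := by
  induction k with
  | zero => simpa using h0
  | succ k ih =>
    refine (ratio_bound hp hc hr k).trans ?_
    rw [pow_succ, mul_comm]
    exact mul_le_mul_of_nonneg_right ih hr0

/-- The upper tail of the free energy is exponential at the scale `σ + 1`. -/
theorem T_geom (k : ℕ) :
    T n β (mean n β - 3 * sd1 n β + k * (9 * sd1 n β)) ≤ (3 / 16) ^ k := by
  refine geom_bound (t := fun k : ℕ => T n β (mean n β - 3 * sd1 n β + k * (9 * sd1 n β)))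
    (fun k => T_pos n β _) (fun k => ?_) (by norm_num) ?_ (T_le_one n β _) k
  · have h := T_mid n β (mean n β - 3 * sd1 n β + k * (9 * sd1 n β))
      (mean n β - 3 * sd1 n β + ((k + 2 : ℕ) : ℝ) * (9 * sd1 n β))
    have e : (mean n β - 3 * sd1 n β + k * (9 * sd1 n β) +
        (mean n β - 3 * sd1 n β + ((k + 2 : ℕ) : ℝ) * (9 * sd1 n β))) / 2 =
        mean n β - 3 * sd1 n β + ((k + 1 : ℕ) : ℝ) * (9 * sd1 n β) := by
      push_cast
      ring
    rw [e] at h
    exact h
  · have h1 := T_low n β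
    have h2 := T_high n β
    have e : mean n β - 3 * sd1 n β + ((1 : ℕ) : ℝ) * (9 * sd1 n β) =
        mean n β + 6 * sd1 n β := by
      push_cast
      ring
    have e0 : mean n β - 3 * sd1 n β + ((0 : ℕ) : ℝ) * (9 * sd1 n β) =
        mean n β - 3 * sd1 n β := by
      push_cast
      ring
    simp only [e, e0]
    linarith

/-- The upper tail of the free energy: `P(F ≥ EF + (9k-3)(σ+1)) ≤ (3/16)^k`. -/
theorem tail_upper (k : ℕ) :
    (disorder n).real {g | mean n β - 3 * sd1 n β + k * (9 * sd1 n β) ≤ freeEnergy n β g} ≤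
      (3 / 16) ^ k :=
  (T_ge n β _).trans (T_geom n β k)

lemma exp_half_le : Real.exp (1 / 2) ≤ 5 / 3 := by
  have h1 := Real.exp_one_lt_d9
  have h2 : Real.exp (1 / 2) ^ 2 = Real.exp 1 := by
    rw [← Real.exp_nat_mul]
    norm_num
  have h3 := Real.exp_pos (1 / 2)
  nlinarith

/-- The exponential moment, as a lower integral. -/
theorem lexp_moment {x : ℝ} (hx : 0 ≤ x) (hx1 : x * (18 * sd1 n β) ≤ 1) :
    ∫⁻ g, ENNReal.ofReal (Real.exp (x * (freeEnergy n β g - mean n β))) ∂(disorder n) ≤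
      ENNReal.ofReal (7 / 2) := by
  have hs := sd1_pos n β
  set a0 := mean n β - 3 * sd1 n β with ha0
  set L := 9 * sd1 n β with hL
  have hL0 : 0 < L := by positivity
  have hxL : x * L ≤ 1 / 2 := by linarith
  have hmF := (continuous_freeEnergy n β).measurable
  have hset : ∀ k : ℕ, MeasurableSet {g : Pair n → ℝ | a0 + k * L ≤ freeEnergy n β g} :=
    fun k => measurableSet_le measurable_const hmF
  have hpt : ∀ g : Pair n → ℝ,
      ENNReal.ofReal (Real.exp (x * (freeEnergy n β g - mean n β))) ≤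
      1 + ∑' k : ℕ, {g : Pair n → ℝ | a0 + k * L ≤ freeEnergy n β g}.indicator
        (fun _ => ENNReal.ofReal (Real.exp (((k : ℝ) + 1) * (1 / 2)))) g := by
    intro g
    rcases lt_or_ge (freeEnergy n β g) a0 with h | h
    · refine le_trans ?_ (le_self_add)
      rw [← ENNReal.ofReal_one]
      refine ENNReal.ofReal_le_ofReal (Real.exp_le_one_iff.2 ?_)
      exact mul_nonpos_of_nonneg_of_nonpos hx (by linarith)
    · refine le_trans ?_ (le_add_self)
      refine le_trans ?_ (ENNReal.le_tsum ⌊(freeEnergy n β g - a0) / L⌋₊)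
      have h1 : a0 + (⌊(freeEnergy n β g - a0) / L⌋₊ : ℝ) * L ≤ freeEnergy n β g := by
        have h2 := Nat.floor_le (div_nonneg (sub_nonneg.2 h) hL0.le)
        rw [le_div_iff₀ hL0] at h2
        linarith
      have hmem : g ∈ {g' : Pair n → ℝ |
          a0 + (⌊(freeEnergy n β g - a0) / L⌋₊ : ℝ) * L ≤ freeEnergy n β g'} := h1
      rw [indicator_of_mem hmem]
      refine ENNReal.ofReal_le_ofReal (Real.exp_le_exp.2 ?_)
      have h3 := Nat.lt_floor_add_one ((freeEnergy n β g - a0) / L)
      rw [div_lt_iff₀ hL0] at h3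
      set N : ℝ := (⌊(freeEnergy n β g - a0) / L⌋₊ : ℝ) with hN
      have hN0 : 0 ≤ N := Nat.cast_nonneg _
      calc x * (freeEnergy n β g - mean n β) ≤ x * ((N + 1) * L) :=
            mul_le_mul_of_nonneg_left (by linarith) hx
        _ = (N + 1) * (x * L) := by ring
        _ ≤ (N + 1) * (1 / 2) := mul_le_mul_of_nonneg_left hxL (by linarith)
  refine (lintegral_mono hpt).trans ?_
  rw [lintegral_add_left measurable_const, lintegral_const, measure_univ, mul_one,
    lintegral_tsum fun k => (measurable_const.indicator (hset k)).aemeasurable]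
  have hterm : ∀ k : ℕ, ∫⁻ g, {g : Pair n → ℝ | a0 + k * L ≤ freeEnergy n β g}.indicator
        (fun _ => ENNReal.ofReal (Real.exp (((k : ℝ) + 1) * (1 / 2)))) g ∂(disorder n) ≤
      ENNReal.ofReal (5 / 3) * ENNReal.ofReal (5 / 16) ^ k := by
    intro k
    rw [lintegral_indicator_const (hset k)]
    have h1 : (disorder n) {g : Pair n → ℝ | a0 + k * L ≤ freeEnergy n β g} ≤
        ENNReal.ofReal ((3 / 16) ^ k) := by
      rw [← ofReal_measureReal]
      exact ENNReal.ofReal_le_ofReal (tail_upper n β k)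
    refine (mul_le_mul_right h1 _).trans ?_
    rw [← ENNReal.ofReal_mul (Real.exp_pos _).le, ← ENNReal.ofReal_pow (by norm_num),
      ← ENNReal.ofReal_mul (by norm_num)]
    refine ENNReal.ofReal_le_ofReal ?_
    have h2 : Real.exp (((k : ℝ) + 1) * (1 / 2)) = Real.exp (1 / 2) ^ (k + 1) := by
      rw [← Real.exp_nat_mul]
      push_cast
      ring_nf
    rw [h2]
    calc Real.exp (1 / 2) ^ (k + 1) * (3 / 16) ^ k ≤ (5 / 3) ^ (k + 1) * (3 / 16) ^ k := by
          have := pow_le_pow_left₀ (Real.exp_pos (1 / 2)).le exp_half_le (k + 1)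
          exact mul_le_mul_of_nonneg_right this (by positivity)
      _ = 5 / 3 * ((5 / 3) * (3 / 16)) ^ k := by
          rw [mul_pow, pow_succ]
          ring
      _ = 5 / 3 * (5 / 16) ^ k := by norm_num
  refine (add_le_add_right (ENNReal.tsum_le_tsum hterm) 1).trans ?_
  rw [ENNReal.tsum_mul_left, ENNReal.tsum_geometric]
  have h1 : (1 : ℝ≥0∞) - ENNReal.ofReal (5 / 16) = ENNReal.ofReal (11 / 16) := by
    rw [← ENNReal.ofReal_one, ← ENNReal.ofReal_sub _ (by norm_num)]
    norm_num
  rw [h1, ← ENNReal.ofReal_inv_of_pos (by norm_num), ← ENNReal.ofReal_mul (by norm_num),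
    ← ENNReal.ofReal_one, ← ENNReal.ofReal_add (by norm_num) (by norm_num)]
  exact ENNReal.ofReal_le_ofReal (by norm_num)

/-- `E e^{x(F-EF)} ≤ 7/2` for `0 ≤ x ≤ 1/(18(σ+1))`. -/
theorem exp_moment {x : ℝ} (hx : 0 ≤ x) (hx1 : x * (18 * sd1 n β) ≤ 1) :
    Integrable (fun g => Real.exp (x * (freeEnergy n β g - mean n β))) (disorder n) ∧
    ∫ g, Real.exp (x * (freeEnergy n β g - mean n β)) ∂(disorder n) ≤ 7 / 2 := by
  have hc : Continuous fun g => Real.exp (x * (freeEnergy n β g - mean n β)) :=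
    Real.continuous_exp.comp (continuous_const.mul ((continuous_freeEnergy n β).sub
      continuous_const))
  have h := lexp_moment n β hx hx1
  have hi : Integrable (fun g => Real.exp (x * (freeEnergy n β g - mean n β)))
      (disorder n) := by
    refine ⟨hc.aestronglyMeasurable, ?_⟩
    rw [hasFiniteIntegral_iff_ofReal (Filter.Eventually.of_forall fun g => (Real.exp_pos _).le)]
    exact h.trans_lt ENNReal.ofReal_lt_top
  refine ⟨hi, ?_⟩
  rw [← ofReal_integral_eq_lintegral_ofReal hi
    (Filter.Eventually.of_forall fun g => (Real.exp_pos _).le)] at h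
  exact (ENNReal.ofReal_le_ofReal_iff (by norm_num)).1 h

lemma log_seven_half : Real.log (7 / 2) ≤ 3 / 2 := by
  rw [Real.log_le_iff_le_exp (by norm_num)]
  have h1 := Real.exp_one_gt_d9
  have h2 : Real.exp (3 / 2) ^ 2 = Real.exp 1 ^ 3 := by
    rw [← Real.exp_nat_mul, ← Real.exp_nat_mul]
    norm_num
  have h3 := Real.exp_pos (3 / 2)
  have h4 : (2.7 : ℝ) ^ 3 ≤ Real.exp 1 ^ 3 := pow_le_pow_left₀ (by norm_num) (by linarith) 3
  nlinarith

/-- `log E e^{x(F-EF)} ≤ 3/2` for `0 ≤ x ≤ 1/(18(1+√Var F))`. -/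
theorem log_exp_moment {x : ℝ} (hx : 0 ≤ x)
    (hx1 : x ≤ 1 / (18 * (1 + Real.sqrt (Var[freeEnergy n β; disorder n])))) :
    Real.log (∫ g, Real.exp (x * (freeEnergy n β g - ∫ g, freeEnergy n β g ∂(disorder n)))
      ∂(disorder n)) ≤ 3 / 2 := by
  have hs := sd1_pos n β
  have h1 : x * (18 * sd1 n β) ≤ 1 := by
    have h2 : x ≤ 1 / (18 * sd1 n β) := hx1
    rw [le_div_iff₀ (by positivity)] at h2
    exact h2
  have h2 := (exp_moment n β hx h1).2
  have h3 : 0 < ∫ g, Real.exp (x * (freeEnergy n β g - mean n β)) ∂(disorder n) :=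
    integral_exp_pos (exp_moment n β hx h1).1
  exact (Real.log_le_log h3 h2).trans log_seven_half

/-- A lower bound for the variance from one exponential moment: if
`log E e^{x(F-EF)} > 3/2` for an `x > 0`, then `√Var F ≥ 1/(18x) - 1`. -/
theorem sd_of_tail {x : ℝ} (hx : 0 < x)
    (h : 3 / 2 < Real.log (∫ g, Real.exp (x * (freeEnergy n β g -
      ∫ g, freeEnergy n β g ∂(disorder n))) ∂(disorder n))) :
    1 / (18 * x) - 1 ≤ Real.sqrt (Var[freeEnergy n β; disorder n]) := by
  by_contra hcon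
  rw [not_le] at hcon
  have hs : 0 < 1 + Real.sqrt (Var[freeEnergy n β; disorder n]) := sd1_pos n β
  have h1 : 1 + Real.sqrt (Var[freeEnergy n β; disorder n]) < 1 / (18 * x) := by linarith
  have h2 : x ≤ 1 / (18 * (1 + Real.sqrt (Var[freeEnergy n β; disorder n]))) := by
    rw [lt_div_iff₀ (by positivity)] at h1
    rw [le_div_iff₀ (by positivity)]
    linarith
  have h3 := log_exp_moment n β hx.le h2
  linarith

/-- The same for the variance: `Var F ≥ 1/(648 x²) - 1`. -/
theorem var_of_tail {x : ℝ} (hx : 0 < x)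
    (h : 3 / 2 < Real.log (∫ g, Real.exp (x * (freeEnergy n β g -
      ∫ g, freeEnergy n β g ∂(disorder n))) ∂(disorder n))) :
    1 / (648 * x ^ 2) - 1 ≤ Var[freeEnergy n β; disorder n] := by
  have h1 := sd_of_tail n β hx h
  set s := Real.sqrt (Var[freeEnergy n β; disorder n]) with hs
  have h2 : s ^ 2 = Var[freeEnergy n β; disorder n] := Real.sq_sqrt (variance_nonneg _ _)
  have h3 : 0 ≤ s := Real.sqrt_nonneg _
  have h4 : (1 / (18 * x)) ^ 2 ≤ (1 + s) ^ 2 := pow_le_pow_left₀ (by positivity) (by linarith) 2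
  have h5 : (1 / (18 * x)) ^ 2 = 2 * (1 / (648 * x ^ 2)) := by
    field_simp
    norm_num
  nlinarith [sq_nonneg (1 - s)]

end Vale.Agent.P146.H641
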