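import Vale.Agent.P146.H260.FOutK

/-!
# P146: the output of the block F at a general scale `x₀ ≥ n^(-1/6)`

If the entropy at the scale `x₀` is at least `n^(1+ε) x₀⁴`, there are a scale `x₀ ≤ x ≤ x₀ n^α`, a
window, a size and two times as in `FData`.
-/

open MeasureTheory ProbabilityTheory Set

namespace Vale.Agent.P146.H641.Utc

open Vale.Agent.P157.Lv Vale.Agent.P146.H425 Vale.Agent.P146.H327 Vale.Agent.P146.R1
open Vale.Agent.P146.H260.V13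

set_option linter.unusedSectionVars false

/-- **The scale and the window above the scale `x₀`.** -/
theorem frame_at {C al ε : ℝ} (hC : 0 < C) (hal : 0 < al) (hε : 0 < ε) :
    ∃ A : ℝ, 1 ≤ A ∧ ∃ n₀ : ℝ, 2 ≤ n₀ ∧ ∀ n : ℝ, n₀ ≤ n → ∀ x₀ : ℝ, n ^ (-(1 / 6) : ℝ) ≤ x₀ →
      ∀ (P : ℝ → ℝ → ℝ) (V : ℝ),
      n ^ (1 + ε : ℝ) * x₀ ^ 4 ≤ V → (∀ x, 0 < x → V ≤ ∫ t in (0 : ℝ)..1, P x t) →
      (∀ x, 0 < x → ∀ t ∈ Icc (0 : ℝ) 1, 0 ≤ P x t ∧ P x t ≤ C * n) →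
      (∀ x, 0 < x → IntervalIntegrable (P x) volume 0 1) →
      (∀ x, 0 < x → MonotoneOn (P x) (Icc 0 1)) →
      ∃ (x T : ℝ) (j i : ℕ), x = 2 ^ j * x₀ ∧ T = (1 / 2) ^ i ∧
        x₀ ≤ x ∧ x ≤ x₀ * n ^ al ∧
        ∫ t in (0 : ℝ)..1, P (2 * x) t ≤ A * ∫ t in (0 : ℝ)..1, P x t ∧
        1 / n ^ 2 ≤ T ∧ T ≤ 1 ∧
        (∫ t in (0 : ℝ)..1, P x t) / (6 * Real.log n) ≤ P x (1 - T) * T ∧
        n ^ (1 + ε - al : ℝ) * x₀ ^ 6 ≤ x ^ 2 * P x (1 - T) * T := by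
  obtain ⟨A, hA, n₁, hn₁, hfr⟩ := frame2 hC hal hε
  obtain ⟨n₂, hn₂, hlog⟩ := H737.R1.log_le_pow (A := 6) hal
  refine ⟨A, hA, max n₁ n₂, hn₁.trans (le_max_left _ _), fun n hn x₀ hx₀ P V hV hVG hP hPi hPm =>
    ?_⟩
  have hn1 : n₁ ≤ n := (le_max_left _ _).trans hn
  have hn2 : n₂ ≤ n := (le_max_right _ _).trans hn
  have hn20 : 2 ≤ n := hn₁.trans hn1
  have hn0 : 0 < n := by linarith
  have hn1' : 1 ≤ n := by linarith
  have hlogp : 0 < Real.log n := Real.log_pos (by linarith)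
  have hx6 : 0 < n ^ (-(1 / 6) : ℝ) := Real.rpow_pos_of_pos hn0 _
  have hx00 : 0 < x₀ := hx6.trans_le hx₀
  obtain ⟨lam, hlam⟩ : ∃ lam, lam = x₀ / n ^ (-(1 / 6) : ℝ) := ⟨_, rfl⟩
  have hlam0 : 0 < lam := by rw [hlam]; positivity
  have hlx : lam * n ^ (-(1 / 6) : ℝ) = x₀ := by
    rw [hlam]
    field_simp
  have hx04 : n ^ (-(2 / 3) : ℝ) ≤ x₀ ^ 4 := by
    calc n ^ (-(2 / 3) : ℝ) = (n ^ (-(1 / 6) : ℝ)) ^ 4 := by
          rw [← Real.rpow_natCast, ← Real.rpow_mul hn0.le]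
          congr 1
          norm_num
      _ ≤ x₀ ^ 4 := pow_le_pow_left₀ hx6.le hx₀ 4
  have hV3 : n ^ (1 / 3 + ε : ℝ) ≤ V := by
    refine le_trans ?_ hV
    calc n ^ (1 / 3 + ε : ℝ) = n ^ (1 + ε : ℝ) * n ^ (-(2 / 3) : ℝ) := by
          rw [← Real.rpow_add hn0]
          congr 1
          ring
      _ ≤ _ := mul_le_mul_of_nonneg_left hx04 (by positivity)
  obtain ⟨x', T, j, i, hj, hi, h1, h2, h3, h4, h5, h6, -⟩ := hfr n hn1 (fun x t => P (lam * x) t) V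
    hV3 (fun x hx => hVG _ (by positivity)) (fun x hx => hP _ (by positivity))
    (fun x hx => hPi _ (by positivity)) (fun x hx => hPm _ (by positivity))
  have hx'0 : 0 < x' := hx6.trans_le h1
  have e2 : lam * (2 * x') = 2 * (lam * x') := by ring
  simp only [e2] at h3
  have hxx : x₀ ≤ lam * x' := by
    rw [← hlx]
    exact mul_le_mul_of_nonneg_left h1 hlam0.le
  have hxp : 0 < lam * x' := by positivity
  refine ⟨lam * x', T, j, i, ?_, hi, hxx, ?_, h3, h4, h5, h6, ?_⟩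
  · rw [hj, ← hlx]
    ring
  · calc lam * x' ≤ lam * n ^ (-(1 / 6) + al : ℝ) := mul_le_mul_of_nonneg_left h2 hlam0.le
      _ = x₀ * n ^ al := by
          rw [Real.rpow_add hn0, ← mul_assoc, hlx]
  · have g1 : V / (6 * Real.log n) ≤ P (lam * x') (1 - T) * T :=
      le_trans (by gcongr; exact hVG _ hxp) h6
    have g2 : n ^ (1 + ε - al : ℝ) * x₀ ^ 4 ≤ V / (6 * Real.log n) := by
      rw [le_div_iff₀ (by positivity)]
      have g3 := hlog n hn2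
      calc n ^ (1 + ε - al : ℝ) * x₀ ^ 4 * (6 * Real.log n) ≤
            n ^ (1 + ε - al : ℝ) * x₀ ^ 4 * n ^ al :=
            mul_le_mul_of_nonneg_left g3 (by positivity)
        _ = n ^ (1 + ε : ℝ) * x₀ ^ 4 := by
            rw [mul_right_comm, ← Real.rpow_add hn0]
            congr 2
            ring
        _ ≤ V := hV
    have g4 : x₀ ^ 2 ≤ (lam * x') ^ 2 := pow_le_pow_left₀ hx00.le hxx 2
    calc n ^ (1 + ε - al : ℝ) * x₀ ^ 6 = x₀ ^ 2 * (n ^ (1 + ε - al : ℝ) * x₀ ^ 4) := by ring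
      _ ≤ (lam * x') ^ 2 * (P (lam * x') (1 - T) * T) :=
          mul_le_mul g4 (g2.trans g1) (by positivity) (by positivity)
      _ = _ := by ring

variable {κ : Type} [Fintype κ] {F : (κ → ℝ) → ℝ} {D : κ → (κ → ℝ) → ℝ} {B L : ℝ}

/-- The output of the block F at a general scale. -/
structure FDatX (n α ε C : ℝ) (F : (κ → ℝ) → ℝ) (D : κ → (κ → ℝ) → ℝ)
    (R : ℝ → ℝ → ℝ → ℝ → ℝ) (x θ T ρ s1 s2 : ℝ) : Prop where
  θ_pos : 0 < θ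
  θ_le : θ ≤ 1 / 64
  T_pos : 0 < T
  T_low : 1 / n ^ 2 ≤ T
  T_le : T ≤ 1
  ρ_pos : 0 < ρ
  ρ_le : ρ ≤ C * n
  ρ_low : n ^ (1 / 3 + ε - 3 * α : ℝ) ≤ ρ
  y_low : n ^ (ε - α : ℝ) ≤ x ^ 2 * ρ * T
  s1_low : 1 - T / 2 < s1
  s12 : s1 + T / 8 ≤ s2
  s2_up : s2 < 1 - T / 4
  low : ∀ s, 1 - T / 2 ≤ s → s ≤ 1 - T / 4 → Et x θ (1 - T) (1 - T / 2) s F
    (fun _ _ z2 => if sq x s F D z2 ≤ n ^ (-α) * ρ then (1 : ℝ) else 0) ≤
      Real.exp (-n ^ (ε / 2))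
  up2 : ∀ s, 1 - T / 2 ≤ s → s ≤ 1 - T / 4 → Et x θ (1 - T) (1 - T / 2) s F
    (fun _ _ z2 => if n ^ α * ρ ≤ sq x s F D z2 then (1 : ℝ) else 0) ≤
      Real.exp (-n ^ (ε / 2))
  up1 : ∀ s, 1 - T / 2 ≤ s → s ≤ 1 - T / 4 → Et x θ (1 - T) (1 - T / 2) s F
    (fun _ z1 _ => if n ^ α * ρ ≤ sq x (1 - T / 2) F D z1 then (1 : ℝ) else 0) ≤
      Real.exp (-n ^ (ε / 2))
  up0 : ∀ s, 1 - T / 2 ≤ s → s ≤ 1 - T / 4 → Et x θ (1 - T) (1 - T / 2) s F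
    (fun z0 _ _ => if n ^ α * ρ ≤ sq x (1 - T) F D z0 then (1 : ℝ) else 0) ≤
      Real.exp (-n ^ (ε / 2))
  rate1 : R x θ T s1 ≤ n ^ α * ρ / T
  rate2 : R x θ T s2 ≤ n ^ α * ρ / T
  grow : T ≤ n ^ (-α) → n ^ (-α) * ρ ≤
    Qt x θ (1 - T) (1 - T / 2) s2 F D - Qt x θ (1 - T) (1 - T / 2) s1 F D

/-- The bounds at one scale and one window, in terms of powers of `n`. -/
theorem f_atX {n α ε C A x T : ℝ} (hN : FNum n α ε C A) (h : C11 F D B L)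
    (hc : Cv F) (hBd : ∀ z, ∑ e, D e z ^ 2 ≤ C * n) (hC : 0 < C)
    (hα : 0 < α) (hx : 0 < x) (hT : 0 < T) (hT1 : T ≤ 1)
    {ρ θ : ℝ} (hρ : ρ = Phi x F D (1 - T)) (hθ : θ = 1 / (64 * (3 * A * Real.log n)))
    (hG : GG (2 * x) F D ≤ 3 * A * Real.log n * (ρ * T))
    (hy : n ^ (ε - α : ℝ) ≤ x ^ 2 * ρ * T) :
    0 < ρ ∧ 0 < θ ∧ θ ≤ 1 / 64 ∧ ρ ≤ C * n ∧
    (∀ s, 1 - T / 2 ≤ s → s ≤ 1 - T / 4 → n ^ (-(α / 4)) * ρ ≤
      Qt x θ (1 - T) (1 - T / 2) s F D) ∧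
    Qt x θ (1 - T) (1 - T / 2) (1 - T / 4) F D ≤ n ^ (α / 2) * ρ ∧
    (∀ s, 1 - T / 2 ≤ s → s ≤ 1 - T / 4 → Et x θ (1 - T) (1 - T / 2) s F
      (fun _ _ z2 => if sq x s F D z2 ≤ n ^ (-α) * ρ then (1 : ℝ) else 0) ≤
        Real.exp (-n ^ (ε / 2))) ∧
    (∀ s, 1 - T / 2 ≤ s → s ≤ 1 - T / 4 → Et x θ (1 - T) (1 - T / 2) s F
      (fun _ _ z2 => if n ^ α * ρ ≤ sq x s F D z2 then (1 : ℝ) else 0) ≤
        Real.exp (-n ^ (ε / 2))) ∧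
    (∀ s, 1 - T / 2 ≤ s → s ≤ 1 - T / 4 → Et x θ (1 - T) (1 - T / 2) s F
      (fun _ z1 _ => if n ^ α * ρ ≤ sq x (1 - T / 2) F D z1 then (1 : ℝ) else 0) ≤
        Real.exp (-n ^ (ε / 2))) ∧
    (∀ s, 1 - T / 2 ≤ s → s ≤ 1 - T / 4 → Et x θ (1 - T) (1 - T / 2) s F
      (fun z0 _ _ => if n ^ α * ρ ≤ sq x (1 - T) F D z0 then (1 : ℝ) else 0) ≤
        Real.exp (-n ^ (ε / 2))) := by
  have hn0 : 0 < n := by linarith [hN.n1]
  have hyp : 0 < x ^ 2 * ρ * T := (Real.rpow_pos_of_pos hn0 _).trans_le hy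
  have hρp : 0 < ρ := by
    by_contra hh
    push Not at hh
    have : x ^ 2 * ρ * T ≤ 0 := mul_nonpos_of_nonpos_of_nonneg
      (mul_nonpos_of_nonneg_of_nonpos (by positivity) hh) hT.le
    linarith
  have hρC : ρ ≤ C * n := by
    rw [hρ]
    exact Phi_le h hx hBd ⟨by linarith, by linarith⟩
  have hsm := hN.small _ hy
  have hΛu := hN.Λu
  have hΛ1 := hN.Λ1
  rw [← hθ] at hsm
  set Λ := 3 * A * Real.log n with hΛ
  have hΛ0 : 0 < Λ := by linarith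
  have hθ0 : 0 < θ := by rw [hθ]; positivity
  have hθΛ : θ * Λ ≤ 1 / 64 := by
    rw [hθ]
    exact le_of_eq (by field_simp)
  have hθ1 : θ ≤ 1 / 64 := by
    rw [hθ]
    exact one_div_le_one_div_of_le (by norm_num) (by linarith)
  have htilt := tilt_rows h hc hx hT hT1 hρ hθ0 hθ1
  have hu2 := hN.u1
  set u := n ^ (α / 16) with hu
  have hpow := hN.pow
  have hupe : ∀ M, u ≤ M → Real.exp ((Λ / 2 - M / 16) * (x ^ 2 * ρ * T)) ≤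
      Real.exp (-n ^ (ε / 2)) := by
    intro M hM
    refine Real.exp_le_exp.2 ?_
    have h1 : Λ / 2 - M / 16 ≤ -1 := by linarith
    have h2 := mul_le_mul_of_nonneg_right h1 hyp.le
    have h3 := hN.y1 _ hy
    linarith
  have hL0 : 0 ≤ Lth x θ (1 - T) (1 - T / 2) F := htilt.L0
  have hnα : u ≤ n ^ α := hpow _ (by linarith)
  refine ⟨hρp, hθ0, hθ1, hρC, fun s h1 h2 => ?_, ?_, fun s h1 h2 => ?_,
    fun s h1 h2 => ?_,
    fun s h1 h2 => ?_, fun s h1 h2 => ?_⟩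
  · refine le_trans ?_ (Qt_low (s := s) h hc hx hT hT1 hρp hΛ1 hG hθ0 hθΛ htilt h1
        (by linarith) (hsm.trans hN.half))
    have h1 : u ≤ n ^ (α / 4) := hpow _ (by linarith)
    have h2 : n ^ (-(α / 4)) ≤ 1 / 512 := by
      rw [Real.rpow_neg hn0.le, ← one_div]
      exact one_div_le_one_div_of_le (by norm_num) (by linarith)
    have h3 := mul_le_mul_of_nonneg_right h2 hρp.le
    linarith
  · refine (Qt_up h hc hx hT hT1 hρp hΛ1 hG hθ0 hθΛ htilt).trans ?_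
    have h1 : u ≤ n ^ (α / 2) := hpow _ (by linarith)
    exact mul_le_mul_of_nonneg_right (by linarith) hρp.le
  · refine le_trans ?_ ((low_tail (s := s) h hc hx hT hT1 hρp hΛ1 hG hθ0 hθΛ htilt h1
      (by linarith)).trans hsm)
    refine Et_mono h hx (e3_ind_sq2 h hx s _) (e3_ind_sq2 h hx s _) fun z0 z1 z2 => ?_
    have h3 : n ^ (-α) * ρ ≤ ρ / 256 := by
      have h4 : n ^ (-α) ≤ 1 / 256 := by
        rw [Real.rpow_neg hn0.le, ← one_div]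
        exact one_div_le_one_div_of_le (by norm_num) (by linarith)
      have h5 := mul_le_mul_of_nonneg_right h4 hρp.le
      linarith
    by_cases h6 : sq x s F D z2 ≤ n ^ (-α) * ρ
    · rw [if_pos h6, if_pos (h6.trans h3)]
    · rw [if_neg h6]
      split_ifs <;> norm_num
  · exact (up_tail2 (s := s) h hc hx hT hT1 hρp hΛ1 hG hθ0 hθΛ htilt
      (by positivity) h1 h2).trans (hupe _ hnα)
  · exact (up_tail1 (s := s) h hc hx hT hT1 hρp hΛ1 hG hθ0 hθΛ htilt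
      (by positivity) h1 h2).trans (hupe _ hnα)
  · exact (up_tail0 (s := s) h hc hx hT hT1 hρp hΛ1 hG hθ0 hθΛ htilt
      (by positivity) h1 h2).trans (hupe _ hnα)

/-- **The output of the block F above the scale `x₀`, on grids.** -/
theorem f_outX {ε α C : ℝ} (hα : 0 < α) (hαε : 4 * α ≤ ε) (hC : 0 < C) (K₀ : ℝ) :
    ∃ a : ℝ, 0 < a ∧ ∃ n₀ : ℝ, 2 ≤ n₀ ∧ ∀ n : ℝ, n₀ ≤ n →
      ∀ x₀ : ℝ, n ^ (-(1 / 6) : ℝ) ≤ x₀ →
      ∀ (κ : Type) [Fintype κ] (F : (κ → ℝ) → ℝ)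
      (D : κ → (κ → ℝ) → ℝ) (B L : ℝ) (R : ℝ → ℝ → ℝ → ℝ → ℝ), C11 F D B L → Cv F →
      (∀ z, ∑ e, D e z ^ 2 ≤ C * n) →
      (∀ x θ T, 0 < x → 0 < θ → θ ≤ 1 / 64 → 0 < T → T ≤ 1 →
        (∀ s, 1 - T / 2 ≤ s → s ≤ 1 - T / 4 → K₀ ≤ Qt x θ (1 - T) (1 - T / 2) s F D) →
          Rate F D x θ T (R x θ T)) →
      n ^ (1 + ε : ℝ) * x₀ ^ 4 ≤ VK F x₀ →
      ∃ x θ T ρ s1 s2 : ℝ, (∃ j : ℕ, x = 2 ^ j * x₀) ∧ θ = 1 / (a * Real.log n) ∧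
        (∃ i : ℕ, T = (1 / 2) ^ i) ∧ x₀ ≤ x ∧ x ≤ x₀ * n ^ α ∧
        n ^ (1 + ε - α : ℝ) * x₀ ^ 6 ≤ x ^ 2 * ρ * T ∧ ρ = Phi x F D (1 - T) ∧
        FDatX n α ε C F D R x θ T ρ s1 s2 := by
  have hε : 0 < ε := by linarith
  obtain ⟨A, hA, n₁, hn₁, hframe⟩ := frame_at hC hα hε
  have hA2 : 1 ≤ 2 * A := by linarith
  obtain ⟨n₂, hn₂, htyp⟩ := H737.R1.typical_n (A := 2 * A) hA2 hα
  obtain ⟨n₃, hn₃, hfnum⟩ := fnum hα hαε hC hA2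
  obtain ⟨n₄, hn₄⟩ := Filter.eventually_atTop.1
    ((tendsto_rpow_atTop (show (0 : ℝ) < 1 / 3 by norm_num)).eventually_ge_atTop K₀)
  refine ⟨64 * (3 * (2 * A)), by positivity, max (max n₁ n₂) (max n₃ n₄),
    hn₁.trans ((le_max_left _ _).trans (le_max_left _ _)),
    fun n hn x₀ hx₀ κ _ F D B L R h hc hCn hR hV => ?_⟩
  have hn1 : n₁ ≤ n := ((le_max_left _ _).trans (le_max_left _ _)).trans hn
  have hn2 : n₂ ≤ n := ((le_max_right _ _).trans (le_max_left _ _)).trans hn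
  have hn3 : n₃ ≤ n := ((le_max_left _ _).trans (le_max_right _ _)).trans hn
  have hn4 := hn₄ n (((le_max_right _ _).trans (le_max_right _ _)).trans hn)
  have hN := hfnum n hn3
  have hn1r : 1 ≤ n := hN.n1
  have hn0 : 0 < n := by linarith [hN.n1]
  have hx6 : 0 < n ^ (-(1 / 6) : ℝ) := Real.rpow_pos_of_pos hn0 _
  have hx00 : 0 < x₀ := hx6.trans_le hx₀
  obtain ⟨x, T, j, i, hj, hi, hx0, hx1, hreg, hT0, hT1, hwin, hy⟩ := hframe n hn1 x₀ hx₀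
    (fun x t => Phi (max x x₀) F D t)
    (VK F x₀) hV (fun x hx => (VK_mono h hc hx00 (le_max_right _ _)).trans
      (VK_le_GG h (hx00.trans_le (le_max_right _ _))))
    (fun x hx t ht => ⟨(Phi_bd h (hx00.trans_le (le_max_right _ _)) ht).1,
      Phi_le h (hx00.trans_le (le_max_right _ _)) hCn ht⟩)
    (fun x hx => Phi_int h (hx00.trans_le (le_max_right _ _)))
    (fun x hx => Phi_mono h (hx00.trans_le (le_max_right _ _)))
  have hxp : 0 < x := hx00.trans_le hx0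
  have em : max x x₀ = x := max_eq_left hx0
  have em2 : max (2 * x) x₀ = 2 * x := max_eq_left (by linarith)
  simp only [em, em2] at hreg hwin hy
  have hTp : 0 < T := (by positivity : 0 < 1 / n ^ 2).trans_le hT0
  -- the lower bounds in powers of `n`
  have p6 : n ^ (-(1 : ℝ)) ≤ x₀ ^ 6 := by
    calc n ^ (-(1 : ℝ)) = (n ^ (-(1 / 6) : ℝ)) ^ 6 := by
          rw [← Real.rpow_natCast, ← Real.rpow_mul hn0.le]
          congr 1
          norm_num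
      _ ≤ x₀ ^ 6 := pow_le_pow_left₀ hx6.le hx₀ 6
  have p4 : n ^ (-(2 / 3) : ℝ) ≤ x₀ ^ 4 := by
    calc n ^ (-(2 / 3) : ℝ) = (n ^ (-(1 / 6) : ℝ)) ^ 4 := by
          rw [← Real.rpow_natCast, ← Real.rpow_mul hn0.le]
          congr 1
          norm_num
      _ ≤ x₀ ^ 4 := pow_le_pow_left₀ hx6.le hx₀ 4
  have hyl : n ^ (ε - α : ℝ) ≤ x ^ 2 * Phi x F D (1 - T) * T := by
    refine le_trans ?_ hy
    calc n ^ (ε - α : ℝ) = n ^ (1 + ε - α : ℝ) * n ^ (-(1 : ℝ)) := by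
          rw [← Real.rpow_add hn0]
          congr 1
          ring
      _ ≤ _ := mul_le_mul_of_nonneg_left p6 (by positivity)
  have hΦ0 : 0 ≤ Phi x F D (1 - T) := (Phi_bd h hxp ⟨by linarith, by linarith⟩).1
  have hρl : n ^ (1 / 3 + ε - 3 * α : ℝ) ≤ Phi x F D (1 - T) := by
    have q1 : n ^ (1 + ε - α : ℝ) * x₀ ^ 6 ≤ x ^ 2 * Phi x F D (1 - T) := by
      refine hy.trans ?_
      have := mul_le_mul_of_nonneg_left hT1 (by positivity : 0 ≤ x ^ 2 * Phi x F D (1 - T))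
      linarith
    have q2 : x ^ 2 ≤ x₀ ^ 2 * n ^ (2 * α) := by
      calc x ^ 2 ≤ (x₀ * n ^ α) ^ 2 := pow_le_pow_left₀ hxp.le hx1 2
        _ = x₀ ^ 2 * n ^ (2 * α) := by
            rw [mul_pow, ← Real.rpow_natCast (n ^ α), ← Real.rpow_mul hn0.le]
            congr 2
            push_cast
            ring
    have q3 : x₀ ^ 2 * (n ^ (1 + ε - α : ℝ) * x₀ ^ 4) ≤
        x₀ ^ 2 * (n ^ (2 * α) * Phi x F D (1 - T)) := by
      calc x₀ ^ 2 * (n ^ (1 + ε - α : ℝ) * x₀ ^ 4) = n ^ (1 + ε - α : ℝ) * x₀ ^ 6 := by ring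
        _ ≤ x ^ 2 * Phi x F D (1 - T) := q1
        _ ≤ x₀ ^ 2 * n ^ (2 * α) * Phi x F D (1 - T) := mul_le_mul_of_nonneg_right q2 hΦ0
        _ = _ := by ring
    have q4 := le_of_mul_le_mul_left q3 (by positivity)
    have q5 : n ^ (2 * α) * n ^ (1 / 3 + ε - 3 * α : ℝ) ≤ n ^ (1 + ε - α : ℝ) * x₀ ^ 4 := by
      calc n ^ (2 * α) * n ^ (1 / 3 + ε - 3 * α : ℝ) =
            n ^ (1 + ε - α : ℝ) * n ^ (-(2 / 3) : ℝ) := by
            rw [← Real.rpow_add hn0, ← Real.rpow_add hn0]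
            congr 1
            ring
        _ ≤ _ := mul_le_mul_of_nonneg_left p4 (by positivity)
    exact le_of_mul_le_mul_left (q5.trans q4) (by positivity)
  have hlog : 0 < Real.log n := by
    have := hN.Λ1
    by_contra hh
    push Not at hh
    have h1 : A * Real.log n ≤ 0 := mul_nonpos_of_nonneg_of_nonpos (by linarith) hh
    linarith
  have hG : GG (2 * x) F D ≤ 3 * (2 * A) * Real.log n * (Phi x F D (1 - T) * T) := by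
    have h1 : GG x F D ≤ 6 * Real.log n * (Phi x F D (1 - T) * T) := by
      have := (div_le_iff₀ (by positivity : (0 : ℝ) < 6 * Real.log n)).1 hwin
      unfold GG
      linarith
    have h2 : GG (2 * x) F D ≤ A * GG x F D := hreg
    have h3 := mul_le_mul_of_nonneg_left h1 (by linarith : (0 : ℝ) ≤ A)
    linarith
  have hGp : 0 < GG (2 * x) F D := by
    have h1 := (VK_mono h hc hx00 (by linarith : x₀ ≤ 2 * x)).trans
      (VK_le_GG h (x := 2 * x) (by positivity))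
    have h2 : 0 < n ^ (1 + ε : ℝ) * x₀ ^ 4 := by positivity
    linarith
  obtain ⟨hρp, hθ0, hθ1, hρC, hlo, hup, k1, k2, k3, k4⟩ :=
    f_atX hN h hc hCn hC hα hxp hTp hT1 rfl rfl hG hyl
  have hRt := hR x _ T hxp hθ0 hθ1 hTp hT1 fun s h1 h2 =>
    (hn4.trans (hN.ρ2 _ hρl).1).trans (hlo s h1 h2)
  obtain ⟨s1, s2, hs1, -, hs12, hs2, hr1, hr2, hgr⟩ := htyp n hn2 _ _ T _ _ hTp hT1 hρp hGp
    hG hRt.cont hRt.deriv hRt.nonneg (fun s hs => hlo s hs.1 hs.2) hup hRt.star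
  exact ⟨x, _, T, _, s1, s2, ⟨j, hj⟩, by rw [mul_assoc 64], ⟨i, hi⟩, hx0, hx1, hy, rfl, hθ0, hθ1,
    hTp, hT0, hT1, hρp, hρC, hρl, hyl, hs1, hs12, hs2,
    k1, k2, k3, k4, hr1, hr2, hgr⟩

/-- **The output of the block F on grids for a smooth convex function whose gradients at two
points have an inner product at least `-K`.** -/
theorem f_finX {ε α C K : ℝ} (hα : 0 < α) (hαε : 4 * α ≤ ε) (hC : 0 < C) (hK0 : 0 ≤ K) :
    ∃ a : ℝ, 0 < a ∧ ∃ n₀ : ℝ, 2 ≤ n₀ ∧ ∀ n : ℝ, n₀ ≤ n →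
      ∀ x₀ : ℝ, n ^ (-(1 / 6) : ℝ) ≤ x₀ →
      ∀ (κ : Type) [Fintype κ] [DecidableEq κ]
      (F : (κ → ℝ) → ℝ) (D : κ → (κ → ℝ) → ℝ) (B L M : ℝ) (H Tn : κ → κ → (κ → ℝ) → ℝ),
      Sm F D B L H Tn M → Cv F → (∀ z, ∑ e, D e z ^ 2 ≤ C * n) →
      (∀ y y', -K ≤ ∑ e, D e y * D e y') →
      n ^ (1 + ε : ℝ) * x₀ ^ 4 ≤ VK F x₀ →
      ∃ x θ T ρ s1 s2 : ℝ, (∃ j : ℕ, x = 2 ^ j * x₀) ∧ θ = 1 / (a * Real.log n) ∧
        (∃ i : ℕ, T = (1 / 2) ^ i) ∧ x₀ ≤ x ∧ x ≤ x₀ * n ^ α ∧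
        n ^ (1 + ε - α : ℝ) * x₀ ^ 6 ≤ x ^ 2 * ρ * T ∧ ρ = Phi x F D (1 - T) ∧
        FDatX n α ε C F D
          (fun x θ T s => Ht x θ (1 - T) (1 - T / 2) s F D H) x θ T ρ s1 s2 := by
  obtain ⟨a, ha, n₀, h2, hf⟩ := f_outX hα hαε hC K
  refine ⟨a, ha, n₀, h2, fun n hn x₀ hx₀ κ _ _ F D B L M H Tn hS hc hCn hK hV => ?_⟩
  exact hf n hn x₀ hx₀ κ F D B L _ hS.c11 hc hCn (fun x θ T hx hθ hθ1 hT hT1 hQ =>
    rate_of hS hc hK0 hK hx hθ hθ1 hT hT1 hQ) hV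

end Vale.Agent.P146.H641.Utc
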